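import Mathlib

/-!
# P229 block C, algebra: differential polynomials in a commutative ring with two commuting
derivations (helper46)
-/

namespace P229.C

variable {R A : Type*} [CommRing R] [CommRing A] [Algebra R A]

/-- `x` is affine in `g, h` with coefficients in `S` and constant term in `T`. -/
def Aff (S T : Subring A) (g h x : A) : Prop :=
  ∃ α ∈ S, ∃ β ∈ S, ∃ γ ∈ T, x = α * g + β * h + γ

theorem Aff.mono {S S' T T' : Subring A} {g h x : A} (hx : Aff S T g h x) (hS : S ≤ S')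
    (hT : T ≤ T') : Aff S' T' g h x := by
  obtain ⟨α, ha, β, hb, γ, hc, rfl⟩ := hx
  exact ⟨α, hS ha, β, hS hb, γ, hT hc, rfl⟩

theorem Aff.add {S T : Subring A} {g h x y : A} (hx : Aff S T g h x) (hy : Aff S T g h y) :
    Aff S T g h (x + y) := by
  obtain ⟨α, ha, β, hb, γ, hc, rfl⟩ := hx
  obtain ⟨α', ha', β', hb', γ', hc', rfl⟩ := hy
  exact ⟨α + α', S.add_mem ha ha', β + β', S.add_mem hb hb', γ + γ', T.add_mem hc hc', by ring⟩

theorem Aff.neg {S T : Subring A} {g h x : A} (hx : Aff S T g h x) :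
    Aff S T g h (-x) := by
  obtain ⟨α, ha, β, hb, γ, hc, rfl⟩ := hx
  exact ⟨-α, S.neg_mem ha, -β, S.neg_mem hb, -γ, T.neg_mem hc, by ring⟩

theorem Aff.mul {S T : Subring A} {g h x : A} (c : A) (hcS : c ∈ S) (hcT : c ∈ T)
    (hx : Aff S T g h x) : Aff S T g h (c * x) := by
  obtain ⟨α, ha, β, hb, γ, hc, rfl⟩ := hx
  exact ⟨c * α, S.mul_mem hcS ha, c * β, S.mul_mem hcS hb, c * γ, T.mul_mem hcT hc, by ring⟩

theorem Aff.of_mem {S T : Subring A} (g h : A) {x : A} (hx : x ∈ T) : Aff S T g h x :=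
  ⟨0, S.zero_mem, 0, S.zero_mem, x, hx, by ring⟩

theorem Aff.mem {S T : Subring A} {g h x : A} (hx : Aff S T g h x) (U : Subring A) (hS : S ≤ U)
    (hT : T ≤ U) (hg : g ∈ U) (hh : h ∈ U) : x ∈ U := by
  obtain ⟨α, ha, β, hb, γ, hc, rfl⟩ := hx
  exact U.add_mem (U.add_mem (U.mul_mem (hS ha) hg) (U.mul_mem (hS hb) hh)) (hT hc)

/-- The relations satisfied by the scaled second derivatives `G, H, K` of the solution. -/
structure Rel (D1 D2 : Derivation R A A) (Z : Subring A) (G H K a b f : A) : Prop where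
  comm : ∀ x, D1 (D2 x) = D2 (D1 x)
  hZ1 : ∀ z ∈ Z, Aff Z Z G H (D1 z)
  hZ2 : ∀ z ∈ Z, Aff Z Z G H (D2 z)
  hGH : D2 G = D1 H
  hHK : D2 H = D1 K
  ha : a ∈ Z
  hb : b ∈ Z
  hf : f ∈ Z
  hK : K = -(a * G + 2 * b * H + f)

/-- The ring generated by `Z` and the first `m` derivatives of `G` and `H`. -/
def AA (D1 : Derivation R A A) (Z : Subring A) (G H : A) (m : ℕ) : Subring A :=
  Subring.closure ((Z : Set A) ∪ {x | ∃ i ≤ m, x = (⇑D1)^[i] G ∨ x = (⇑D1)^[i] H})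

section

variable {D1 D2 : Derivation R A A} {Z : Subring A} {G H K a b f : A}

theorem Z_le_AA (m : ℕ) : Z ≤ AA D1 Z G H m :=
  fun _ hx => Subring.subset_closure (Or.inl hx)

theorem G_mem {m i : ℕ} (hi : i ≤ m) : (⇑D1)^[i] G ∈ AA D1 Z G H m :=
  Subring.subset_closure (Or.inr ⟨i, hi, Or.inl rfl⟩)

theorem H_mem {m i : ℕ} (hi : i ≤ m) : (⇑D1)^[i] H ∈ AA D1 Z G H m :=
  Subring.subset_closure (Or.inr ⟨i, hi, Or.inr rfl⟩)

theorem AA_mono {m n : ℕ} (h : m ≤ n) : AA D1 Z G H m ≤ AA D1 Z G H n := by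
  apply Subring.closure_mono
  apply Set.union_subset_union_right
  rintro x ⟨i, hi, hx⟩
  exact ⟨i, hi.trans h, hx⟩

theorem iter_succ (i : ℕ) (x : A) : D1 ((⇑D1)^[i] x) = (⇑D1)^[i + 1] x :=
  (Function.iterate_succ_apply' (⇑D1) i x).symm

/-- A derivation which is affine on generators is affine on the ring they generate. -/
theorem affine_closure (D : Derivation R A A) (s : Set A) (g h : A)
    (hs : ∀ x ∈ s, Aff (Subring.closure s) (Subring.closure s) g h (D x)) :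
    ∀ x ∈ Subring.closure s, Aff (Subring.closure s) (Subring.closure s) g h (D x) := by
  intro x hx
  induction hx using Subring.closure_induction with
  | mem x hx => exact hs x hx
  | zero => simpa using Aff.of_mem g h (Subring.zero_mem _)
  | one => simpa using Aff.of_mem g h (Subring.zero_mem _)
  | add x y _ _ ihx ihy => rw [map_add]; exact ihx.add ihy
  | neg x _ ihx => rw [map_neg]; exact ihx.neg
  | mul x y hx hy ihx ihy =>
    rw [Derivation.leibniz, smul_eq_mul, smul_eq_mul]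
    exact (Aff.mul x hx hx ihy).add (Aff.mul y hy hy ihx)

theorem Rel.D1_AA (h : Rel D1 D2 Z G H K a b f) (m : ℕ) :
    ∀ x ∈ AA D1 Z G H m, Aff (AA D1 Z G H m) (AA D1 Z G H m)
      ((⇑D1)^[m + 1] G) ((⇑D1)^[m + 1] H) (D1 x) := by
  apply affine_closure
  rintro x (hx | ⟨i, hi, hx | hx⟩)
  · have h1 := h.hZ1 x hx
    apply Aff.of_mem
    exact h1.mem (AA D1 Z G H m) (Z_le_AA m) (Z_le_AA m) (G_mem (Nat.zero_le m))
      (H_mem (Nat.zero_le m))
  · subst hx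
    rw [iter_succ]
    rcases hi.eq_or_lt with rfl | hi
    · exact ⟨1, Subring.one_mem _, 0, Subring.zero_mem _, 0, Subring.zero_mem _, by ring⟩
    · exact Aff.of_mem _ _ (G_mem hi)
  · subst hx
    rw [iter_succ]
    rcases hi.eq_or_lt with rfl | hi
    · exact ⟨0, Subring.zero_mem _, 1, Subring.one_mem _, 0, Subring.zero_mem _, by ring⟩
    · exact Aff.of_mem _ _ (H_mem hi)

theorem Rel.D1_mem (h : Rel D1 D2 Z G H K a b f) {m : ℕ} {x : A} (hx : x ∈ AA D1 Z G H m) :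
    D1 x ∈ AA D1 Z G H (m + 1) :=
  (h.D1_AA m x hx).mem _ (AA_mono (Nat.le_succ m)) (AA_mono (Nat.le_succ m))
    (G_mem le_rfl) (H_mem le_rfl)

theorem Rel.K_mem (h : Rel D1 D2 Z G H K a b f) : K ∈ AA D1 Z G H 0 := by
  rw [h.hK]
  have hG : G ∈ AA D1 Z G H 0 := G_mem (i := 0) le_rfl
  have hH : H ∈ AA D1 Z G H 0 := H_mem (i := 0) le_rfl
  have h2 : (2 : A) ∈ AA D1 Z G H 0 := by exact_mod_cast natCast_mem (AA D1 Z G H 0) 2
  exact Subring.neg_mem _ (Subring.add_mem _ (Subring.add_mem _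
    (Subring.mul_mem _ (Z_le_AA 0 h.ha) hG) (Subring.mul_mem _ (Subring.mul_mem _ h2
      (Z_le_AA 0 h.hb)) hH)) (Z_le_AA 0 h.hf))

theorem Rel.iterK_mem (h : Rel D1 D2 Z G H K a b f) (j : ℕ) :
    (⇑D1)^[j] K ∈ AA D1 Z G H j := by
  induction j with
  | zero => exact h.K_mem
  | succ j ih => rw [← iter_succ]; exact h.D1_mem ih

theorem Rel.iter_comm (h : Rel D1 D2 Z G H K a b f) (i : ℕ) (x : A) :
    D2 ((⇑D1)^[i] x) = (⇑D1)^[i] (D2 x) := by
  induction i generalizing x with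
  | zero => rfl
  | succ i ih => rw [Function.iterate_succ_apply, Function.iterate_succ_apply, ih, h.comm]

theorem Rel.D2_G (h : Rel D1 D2 Z G H K a b f) (i : ℕ) :
    D2 ((⇑D1)^[i] G) = (⇑D1)^[i + 1] H := by
  rw [h.iter_comm, h.hGH, Function.iterate_succ_apply]

theorem Rel.D2_H (h : Rel D1 D2 Z G H K a b f) (i : ℕ) :
    D2 ((⇑D1)^[i] H) = (⇑D1)^[i + 1] K := by
  rw [h.iter_comm, h.hHK, Function.iterate_succ_apply]

theorem Rel.D2_AA (h : Rel D1 D2 Z G H K a b f) (m : ℕ) :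
    ∀ x ∈ AA D1 Z G H m, Aff (AA D1 Z G H m) (AA D1 Z G H m)
      ((⇑D1)^[m + 1] G) ((⇑D1)^[m + 1] H) (D2 x) := by
  apply affine_closure
  rintro x (hx | ⟨i, hi, hx | hx⟩)
  · have h1 := h.hZ2 x hx
    apply Aff.of_mem
    exact h1.mem (AA D1 Z G H m) (Z_le_AA m) (Z_le_AA m) (G_mem (Nat.zero_le m))
      (H_mem (Nat.zero_le m))
  · subst hx
    rw [h.D2_G]
    rcases hi.eq_or_lt with rfl | hi
    · exact ⟨0, Subring.zero_mem _, 1, Subring.one_mem _, 0, Subring.zero_mem _, by ring⟩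
    · exact Aff.of_mem _ _ (H_mem hi)
  · subst hx
    rw [h.D2_H]
    rcases hi.eq_or_lt with rfl | hi
    · rw [← iter_succ i K]
      exact h.D1_AA i _ (h.iterK_mem i)
    · exact Aff.of_mem _ _ (AA_mono hi (h.iterK_mem (i + 1)))

theorem Rel.D2_mem (h : Rel D1 D2 Z G H K a b f) {m : ℕ} {x : A} (hx : x ∈ AA D1 Z G H m) :
    D2 x ∈ AA D1 Z G H (m + 1) :=
  (h.D2_AA m x hx).mem _ (AA_mono (Nat.le_succ m)) (AA_mono (Nat.le_succ m))
    (G_mem le_rfl) (H_mem le_rfl)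

theorem Rel.D1_Z (h : Rel D1 D2 Z G H K a b f) {z : A} (hz : z ∈ Z) : D1 z ∈ AA D1 Z G H 0 :=
  (h.hZ1 z hz).mem _ (Z_le_AA 0) (Z_le_AA 0) (G_mem (i := 0) le_rfl) (H_mem (i := 0) le_rfl)

/-- Derivative of an affine expression at level `m + 1`. -/
theorem Rel.D1_aff (h : Rel D1 D2 Z G H K a b f) {m : ℕ} {x : A}
    (hx : Aff (AA D1 Z G H 0) (AA D1 Z G H m) ((⇑D1)^[m + 1] G) ((⇑D1)^[m + 1] H) x) :
    Aff (AA D1 Z G H 0) (AA D1 Z G H (m + 1)) ((⇑D1)^[m + 2] G) ((⇑D1)^[m + 2] H) (D1 x) := by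
  obtain ⟨α, ha, β, hb, γ, hc, rfl⟩ := hx
  have h1 : D1 α ∈ AA D1 Z G H (m + 1) := AA_mono (by omega) (h.D1_mem ha)
  have h2 : D1 β ∈ AA D1 Z G H (m + 1) := AA_mono (by omega) (h.D1_mem hb)
  refine ⟨α, ha, β, hb, (⇑D1)^[m + 1] G * D1 α + (⇑D1)^[m + 1] H * D1 β + D1 γ,
    Subring.add_mem _ (Subring.add_mem _ (Subring.mul_mem _ (G_mem le_rfl) h1)
      (Subring.mul_mem _ (H_mem le_rfl) h2)) (h.D1_mem hc), ?_⟩
  rw [map_add, map_add, Derivation.leibniz, Derivation.leibniz, iter_succ, iter_succ]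
  simp only [smul_eq_mul]
  ring

/-- High derivatives of an element of `Z`. -/
theorem Rel.iter_Z (h : Rel D1 D2 Z G H K a b f) {z : A} (hz : z ∈ Z) (m : ℕ) :
    Aff (AA D1 Z G H 0) (AA D1 Z G H m) ((⇑D1)^[m + 1] G) ((⇑D1)^[m + 1] H)
      ((⇑D1)^[m + 2] z) := by
  induction m with
  | zero =>
    have h1 := h.hZ1 z hz
    obtain ⟨α, ha, β, hb, γ, hc, he⟩ := h1
    have hG : G ∈ AA D1 Z G H 0 := G_mem (i := 0) le_rfl
    have hH : H ∈ AA D1 Z G H 0 := H_mem (i := 0) le_rfl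
    refine ⟨α, Z_le_AA 0 ha, β, Z_le_AA 0 hb, G * D1 α + H * D1 β + D1 γ,
      Subring.add_mem _ (Subring.add_mem _ (Subring.mul_mem _ hG (h.D1_Z ha))
      (Subring.mul_mem _ hH (h.D1_Z hb))) (h.D1_Z hc), ?_⟩
    change D1 (D1 z) = α * D1 G + β * D1 H + _
    rw [he, map_add, map_add, Derivation.leibniz, Derivation.leibniz]
    simp only [smul_eq_mul]
    ring
  | succ m ih =>
    have h1 := h.D1_aff ih
    rwa [iter_succ] at h1

/-- High derivatives of a product of an element of `Z` with `G` or `H`. -/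
theorem Rel.iter_mul (h : Rel D1 D2 Z G H K a b f) {z g : A} (hz : z ∈ Z)
    (hg : g = G ∨ g = H) (m : ℕ) :
    Aff (AA D1 Z G H 0) (AA D1 Z G H m) ((⇑D1)^[m + 1] G) ((⇑D1)^[m + 1] H)
      ((⇑D1)^[m + 2] (z * g) - z * (⇑D1)^[m + 2] g) := by
  have hg0 : g ∈ AA D1 Z G H 0 := by
    rcases hg with rfl | rfl
    · exact G_mem (i := 0) le_rfl
    · exact H_mem (i := 0) le_rfl
  have key : ∀ m : ℕ, ∀ c ∈ AA D1 Z G H 0, Aff (AA D1 Z G H 0) (AA D1 Z G H m)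
      ((⇑D1)^[m + 1] G) ((⇑D1)^[m + 1] H) (c * (⇑D1)^[m + 1] g) := by
    intro m c hc
    rcases hg with rfl | rfl
    · exact ⟨c, hc, 0, Subring.zero_mem _, 0, Subring.zero_mem _, by ring⟩
    · exact ⟨0, Subring.zero_mem _, c, hc, 0, Subring.zero_mem _, by ring⟩
  induction m with
  | zero =>
    have h1 := h.iter_Z hz 0
    have h2 := Aff.mul g hg0 hg0 h1
    have h3 := key 0 (D1 z) (h.D1_Z hz)
    have h4 : (⇑D1)^[0 + 2] (z * g) - z * (⇑D1)^[0 + 2] g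
        = g * (⇑D1)^[0 + 2] z + (D1 z * (⇑D1)^[0 + 1] g + D1 z * (⇑D1)^[0 + 1] g) := by
      change D1 (D1 (z * g)) - z * D1 (D1 g) = g * D1 (D1 z) + (D1 z * D1 g + D1 z * D1 g)
      rw [Derivation.leibniz]
      simp only [smul_eq_mul, map_add, Derivation.leibniz]
      ring
    rw [h4]
    exact h2.add (h3.add h3)
  | succ m ih =>
    have h1 := h.D1_aff ih
    have h3 := key (m + 1) (D1 z) (h.D1_Z hz)
    have h4 : (⇑D1)^[m + 1 + 2] (z * g) - z * (⇑D1)^[m + 1 + 2] g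
        = D1 ((⇑D1)^[m + 2] (z * g) - z * (⇑D1)^[m + 2] g)
          + D1 z * (⇑D1)^[m + 1 + 1] g := by
      have e1 : (⇑D1)^[m + 1 + 2] (z * g) = D1 ((⇑D1)^[m + 2] (z * g)) := by
        rw [iter_succ]
      have e2 : (⇑D1)^[m + 1 + 2] g = D1 ((⇑D1)^[m + 2] g) := by
        rw [iter_succ]
      rw [e1, e2, map_sub, Derivation.leibniz]
      simp only [smul_eq_mul]
      ring
    rw [h4]
    exact h1.add h3

/-- **The equation of the derivatives of `G`.** -/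
theorem Rel.equation (h : Rel D1 D2 Z G H K a b f) (m : ℕ) :
    Aff (AA D1 Z G H 0) (AA D1 Z G H m) (D1 ((⇑D1)^[m] G)) (D2 ((⇑D1)^[m] G))
      (D2 (D2 ((⇑D1)^[m] G)) + a * D1 (D1 ((⇑D1)^[m] G)) + 2 * b * D1 (D2 ((⇑D1)^[m] G))) := by
  have e1 : D2 (D2 ((⇑D1)^[m] G)) = (⇑D1)^[m + 2] K := by
    rw [h.D2_G, h.D2_H]
  have e2 : D1 (D1 ((⇑D1)^[m] G)) = (⇑D1)^[m + 2] G := by
    rw [iter_succ, iter_succ]
  have e3 : D1 (D2 ((⇑D1)^[m] G)) = (⇑D1)^[m + 2] H := by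
    rw [h.D2_G, iter_succ]
  rw [e1, e2, e3, iter_succ, h.D2_G]
  have h1 := h.iter_mul h.ha (Or.inl rfl : G = G ∨ G = H) m
  have h2 := h.iter_mul h.hb (Or.inr rfl : H = G ∨ H = H) m
  have h3 := h.iter_Z h.hf m
  have hlin : ∀ (j : ℕ) (x y : A), (⇑D1)^[j] (x + y) = (⇑D1)^[j] x + (⇑D1)^[j] y := by
    intro j
    induction j with
    | zero => intro x y; rfl
    | succ j ih =>
      intro x y
      rw [Function.iterate_succ_apply, Function.iterate_succ_apply, Function.iterate_succ_apply,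
        map_add, ih]
  have hneg : ∀ (j : ℕ) (x : A), (⇑D1)^[j] (-x) = -(⇑D1)^[j] x := by
    intro j
    induction j with
    | zero => intro x; rfl
    | succ j ih =>
      intro x
      rw [Function.iterate_succ_apply, Function.iterate_succ_apply, map_neg, ih]
  have h4 : (⇑D1)^[m + 2] K + a * (⇑D1)^[m + 2] G + 2 * b * (⇑D1)^[m + 2] H
      = -(((⇑D1)^[m + 2] (a * G) - a * (⇑D1)^[m + 2] G)
        + (((⇑D1)^[m + 2] (b * H) - b * (⇑D1)^[m + 2] H)
        + ((⇑D1)^[m + 2] (b * H) - b * (⇑D1)^[m + 2] H)) + (⇑D1)^[m + 2] f) := by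
    have e : K = -(a * G + (b * H + b * H) + f) := by rw [h.hK]; ring
    rw [e, hneg, hlin, hlin, hlin]
    ring
  rw [h4]
  exact (h1.add (h2.add h2) |>.add h3).neg

/-- First derivatives of the right hand side, structure. -/
theorem Rel.deriv_rhs (h : Rel D1 D2 Z G H K a b f) {m : ℕ} (hm : 1 ≤ m) {F : A}
    (hF : Aff (AA D1 Z G H 0) (AA D1 Z G H m) (D1 ((⇑D1)^[m] G)) (D2 ((⇑D1)^[m] G)) F)
    (D : Derivation R A A) (hD : D = D1 ∨ D = D2) :
    ∃ c1 ∈ AA D1 Z G H m, ∃ c2 ∈ AA D1 Z G H m, ∃ c3 ∈ AA D1 Z G H m,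
      ∃ c4 ∈ AA D1 Z G H m, ∃ c5 ∈ AA D1 Z G H m,
      D F = c1 * D (D1 ((⇑D1)^[m] G)) + c2 * D (D2 ((⇑D1)^[m] G))
        + c3 * D1 ((⇑D1)^[m] G) + c4 * D2 ((⇑D1)^[m] G) + c5 := by
  obtain ⟨α, ha, β, hb, γ, hc, rfl⟩ := hF
  have hDm : ∀ x ∈ AA D1 Z G H 0, D x ∈ AA D1 Z G H m := by
    intro x hx
    rcases hD with rfl | rfl
    · exact AA_mono hm (h.D1_mem hx)
    · exact AA_mono hm (h.D2_mem hx)
  have hDc : Aff (AA D1 Z G H m) (AA D1 Z G H m) ((⇑D1)^[m + 1] G) ((⇑D1)^[m + 1] H) (D γ) := by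
    rcases hD with rfl | rfl
    · exact h.D1_AA m γ hc
    · exact h.D2_AA m γ hc
  rw [← iter_succ, ← h.D2_G] at hDc
  obtain ⟨α', ha', β', hb', γ', hc', e⟩ := hDc
  refine ⟨α, AA_mono (Nat.zero_le m) ha, β, AA_mono (Nat.zero_le m) hb, D α + α',
    Subring.add_mem _ (hDm α ha) ha', D β + β', Subring.add_mem _ (hDm β hb) hb', γ', hc', ?_⟩
  rw [map_add, map_add, Derivation.leibniz, Derivation.leibniz, e]
  simp only [smul_eq_mul]
  ring

end

end P229.C
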