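import Vale.Agent.P229.Defs

/-!
# P229, block C: the Bernstein gradient estimate for one function
-/

namespace P229.C

open Set Real
open scoped ContDiff

/-! ### calculus of `dx`, `dy` on an open set -/

theorem bn_hasFDerivAt {f : ℝ → ℝ → ℝ} {U : Set (ℝ × ℝ)} (hU : IsOpen U)
    (hf : ContDiffOn ℝ ∞ (Function.uncurry f) U) {z : ℝ × ℝ} (hz : z ∈ U) :
    HasFDerivAt (Function.uncurry f) (fderiv ℝ (Function.uncurry f) z) z :=
  ((hf.contDiffAt (hU.mem_nhds hz)).differentiableAt (by simp)).hasFDerivAt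

theorem bn_dx_eq {f : ℝ → ℝ → ℝ} {U : Set (ℝ × ℝ)} (hU : IsOpen U)
    (hf : ContDiffOn ℝ ∞ (Function.uncurry f) U) {x y : ℝ} (hz : (x, y) ∈ U) :
    HasDerivAt (fun t => f t y) (fderiv ℝ (Function.uncurry f) (x, y) (1, 0)) x := by
  have h1 : HasDerivAt (fun t : ℝ => ((t, y) : ℝ × ℝ)) (1, 0) x :=
    (hasDerivAt_id x).prodMk (hasDerivAt_const x y)
  have h2 := (bn_hasFDerivAt hU hf hz).comp_hasDerivAt x h1
  exact h2

theorem bn_dy_eq {f : ℝ → ℝ → ℝ} {U : Set (ℝ × ℝ)} (hU : IsOpen U)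
    (hf : ContDiffOn ℝ ∞ (Function.uncurry f) U) {x y : ℝ} (hz : (x, y) ∈ U) :
    HasDerivAt (fun t => f x t) (fderiv ℝ (Function.uncurry f) (x, y) (0, 1)) y := by
  have h1 : HasDerivAt (fun t : ℝ => ((x, t) : ℝ × ℝ)) (0, 1) y :=
    (hasDerivAt_const y x).prodMk (hasDerivAt_id y)
  have h2 := (bn_hasFDerivAt hU hf hz).comp_hasDerivAt y h1
  exact h2

theorem bn_dx_fd {f : ℝ → ℝ → ℝ} {U : Set (ℝ × ℝ)} (hU : IsOpen U)
    (hf : ContDiffOn ℝ ∞ (Function.uncurry f) U) {x y : ℝ} (hz : (x, y) ∈ U) :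
    dx f x y = fderiv ℝ (Function.uncurry f) (x, y) (1, 0) := (bn_dx_eq hU hf hz).deriv

theorem bn_dy_fd {f : ℝ → ℝ → ℝ} {U : Set (ℝ × ℝ)} (hU : IsOpen U)
    (hf : ContDiffOn ℝ ∞ (Function.uncurry f) U) {x y : ℝ} (hz : (x, y) ∈ U) :
    dy f x y = fderiv ℝ (Function.uncurry f) (x, y) (0, 1) := (bn_dy_eq hU hf hz).deriv

theorem bn_smooth_fd {f : ℝ → ℝ → ℝ} {U : Set (ℝ × ℝ)} (hU : IsOpen U)
    (hf : ContDiffOn ℝ ∞ (Function.uncurry f) U) (w : ℝ × ℝ) :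
    ContDiffOn ℝ ∞ (fun z => fderiv ℝ (Function.uncurry f) z w) U :=
  (hf.fderiv_of_isOpen hU (by simp)).clm_apply contDiffOn_const

theorem bn_smooth_dx {f : ℝ → ℝ → ℝ} {U : Set (ℝ × ℝ)} (hU : IsOpen U)
    (hf : ContDiffOn ℝ ∞ (Function.uncurry f) U) : ContDiffOn ℝ ∞ (Function.uncurry (dx f)) U := by
  refine (bn_smooth_fd hU hf (1, 0)).congr ?_
  rintro ⟨x, y⟩ hz
  exact bn_dx_fd hU hf hz

theorem bn_smooth_dy {f : ℝ → ℝ → ℝ} {U : Set (ℝ × ℝ)} (hU : IsOpen U)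
    (hf : ContDiffOn ℝ ∞ (Function.uncurry f) U) : ContDiffOn ℝ ∞ (Function.uncurry (dy f)) U := by
  refine (bn_smooth_fd hU hf (0, 1)).congr ?_
  rintro ⟨x, y⟩ hz
  exact bn_dy_fd hU hf hz

/-- derivative along a line -/
theorem bn_line {f : ℝ → ℝ → ℝ} {U : Set (ℝ × ℝ)} (hU : IsOpen U)
    (hf : ContDiffOn ℝ ∞ (Function.uncurry f) U) {x y al be t : ℝ}
    (hz : (x + al * t, y + be * t) ∈ U) :
    HasDerivAt (fun t => f (x + al * t) (y + be * t))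
      (al * dx f (x + al * t) (y + be * t) + be * dy f (x + al * t) (y + be * t)) t := by
  have h1 : HasDerivAt (fun t : ℝ => ((x + al * t, y + be * t) : ℝ × ℝ)) (al, be) t := by
    have e1 : HasDerivAt (fun t : ℝ => x + al * t) al t := by
      simpa using ((hasDerivAt_id t).const_mul al).const_add x
    have e2 : HasDerivAt (fun t : ℝ => y + be * t) be t := by
      simpa using ((hasDerivAt_id t).const_mul be).const_add y
    exact e1.prodMk e2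
  have h2 := (bn_hasFDerivAt hU hf hz).comp_hasDerivAt t h1
  have h3 : fderiv ℝ (Function.uncurry f) (x + al * t, y + be * t) (al, be) =
      al * dx f (x + al * t) (y + be * t) + be * dy f (x + al * t) (y + be * t) := by
    rw [bn_dx_fd hU hf hz, bn_dy_fd hU hf hz]
    have : ((al, be) : ℝ × ℝ) = al • (1, 0) + be • (0, 1) := by simp
    rw [this, map_add, map_smul, map_smul]
    simp
  rw [← h3]
  exact h2

/-- Schwarz -/
theorem bn_schwarz {f : ℝ → ℝ → ℝ} {U : Set (ℝ × ℝ)} (hU : IsOpen U)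
    (hf : ContDiffOn ℝ ∞ (Function.uncurry f) U) {x y : ℝ} (hz : (x, y) ∈ U) :
    dy (dx f) x y = dx (dy f) x y := by
  have h1 := bn_smooth_dx hU hf
  have h2 := bn_smooth_dy hU hf
  have hsymm : IsSymmSndFDerivAt ℝ (Function.uncurry f) (x, y) :=
    (hf.contDiffAt (hU.mem_nhds hz)).isSymmSndFDerivAt
      (by
        rw [minSmoothness_of_isRCLikeNormedField]
        exact WithTop.coe_le_coe.2 (OrderTop.le_top _))
  have hd : HasFDerivAt (fderiv ℝ (Function.uncurry f))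
      (fderiv ℝ (fderiv ℝ (Function.uncurry f)) (x, y)) (x, y) :=
    (((hf.fderiv_of_isOpen hU (m := ∞) (by simp)).contDiffAt (hU.mem_nhds hz)).differentiableAt
      (by simp)).hasFDerivAt
  have e1 : dy (dx f) x y = fderiv ℝ (fderiv ℝ (Function.uncurry f)) (x, y) (0, 1) (1, 0) := by
    rw [bn_dy_fd hU h1 hz]
    have hev : Function.uncurry (dx f) =ᶠ[nhds (x, y)]
        fun z => fderiv ℝ (Function.uncurry f) z (1, 0) := by
      filter_upwards [hU.mem_nhds hz] with z hz'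
      exact bn_dx_fd (x := z.1) (y := z.2) hU hf hz'
    rw [hev.fderiv_eq]
    have := (hd.clm_apply (hasFDerivAt_const ((1, 0) : ℝ × ℝ) (x, y))).fderiv
    rw [this]
    simp
  have e2 : dx (dy f) x y = fderiv ℝ (fderiv ℝ (Function.uncurry f)) (x, y) (1, 0) (0, 1) := by
    rw [bn_dx_fd hU h2 hz]
    have hev : Function.uncurry (dy f) =ᶠ[nhds (x, y)]
        fun z => fderiv ℝ (Function.uncurry f) z (0, 1) := by
      filter_upwards [hU.mem_nhds hz] with z hz'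
      exact bn_dy_fd (x := z.1) (y := z.2) hU hf hz'
    rw [hev.fderiv_eq]
    have := (hd.clm_apply (hasFDerivAt_const ((0, 1) : ℝ × ℝ) (x, y))).fderiv
    rw [this]
    simp
  rw [e1, e2]
  exact hsymm _ _

/-- equality on an open set passes to derivatives -/
theorem bn_dx_congr {f g : ℝ → ℝ → ℝ} {U : Set (ℝ × ℝ)} (hU : IsOpen U)
    (h : ∀ x y, (x, y) ∈ U → f x y = g x y) {x y : ℝ} (hz : (x, y) ∈ U) :
    dx f x y = dx g x y := by
  have hc : Continuous (fun t : ℝ => ((t, y) : ℝ × ℝ)) := by fun_prop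
  have : (fun t => f t y) =ᶠ[nhds x] fun t => g t y := by
    filter_upwards [hc.continuousAt.preimage_mem_nhds (hU.mem_nhds hz)] with t ht
    exact h _ _ ht
  exact this.deriv_eq

theorem bn_dy_congr {f g : ℝ → ℝ → ℝ} {U : Set (ℝ × ℝ)} (hU : IsOpen U)
    (h : ∀ x y, (x, y) ∈ U → f x y = g x y) {x y : ℝ} (hz : (x, y) ∈ U) :
    dy f x y = dy g x y := by
  have hc : Continuous (fun t : ℝ => ((x, t) : ℝ × ℝ)) := by fun_prop
  have : (fun t => f x t) =ᶠ[nhds y] fun t => g x t := by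
    filter_upwards [hc.continuousAt.preimage_mem_nhds (hU.mem_nhds hz)] with t ht
    exact h _ _ ht
  exact this.deriv_eq

/-- second derivative test on the line -/
theorem bn_second {φ φ' : ℝ → ℝ} {c : ℝ} (h1 : ∀ᶠ t in nhds (0 : ℝ), HasDerivAt φ (φ' t) t)
    (h2 : HasDerivAt φ' c 0) (hmax : IsLocalMax φ 0) : c ≤ 0 := by
  by_contra hc
  push Not at hc
  have e1 : deriv φ =ᶠ[nhds 0] φ' := h1.mono fun t ht => ht.deriv
  have e2 : deriv (deriv φ) 0 = c := by rw [e1.deriv_eq]; exact h2.deriv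
  have e3 : deriv φ 0 = 0 := hmax.deriv_eq_zero
  have hcont : ContinuousAt φ 0 := h1.self_of_nhds.continuousAt
  have hmin : IsLocalMin φ 0 := isLocalMin_of_deriv_deriv_pos (by rw [e2]; exact hc) e3 hcont
  have hconst : φ =ᶠ[nhds 0] fun _ => φ 0 := by
    filter_upwards [hmax, hmin] with t ht1 ht2
    exact le_antisymm ht1 ht2
  have e4 : deriv φ =ᶠ[nhds 0] fun _ => 0 := by
    have := hconst.deriv
    refine this.trans ?_
    exact Filter.Eventually.of_forall fun t => by simp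
  have e5 : deriv (deriv φ) 0 = 0 := by rw [e4.deriv_eq]; simp
  rw [e2] at e5
  linarith

/-! ### the pointwise inequality -/

/-- constants -/
noncomputable def bnK2 (M K : ℝ) : ℝ := 2 * ((M + 1) * K) ^ 2 + 2 * K * ((M + 1) ^ 2 * K) + M * (4 * K ^ 2)
noncomputable def bnc (M lam : ℝ) : ℝ := 18 * M ^ 2 / lam + 18 * M ^ 2 * (1 + M) ^ 2 / lam + 18 * M ^ 2
noncomputable def bnc0 (M lam : ℝ) : ℝ := 2 + (1 + 2 * M ^ 2) / lam
noncomputable def bnc9 (M K lam : ℝ) : ℝ :=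
  bnK2 M K + 32 * ((M + 1) * K) ^ 2 + 32 * M * K ^ 2 + K ^ 2 * (2 * bnc M lam + 18 * M)
noncomputable def bnN (M K lam : ℝ) : ℝ := bnc0 M lam * (bnc9 M K lam + 1)

theorem bn_s1 {ζ k X1 X2 u1 u2 κ : ℝ} (hk2 : k ^ 2 ≤ κ) :
    -(1 / 2 * ζ ^ 2 * (X1 ^ 2 + X2 ^ 2)) - 32 * κ * (u1 ^ 2 + u2 ^ 2) ≤
      8 * ζ * k * (u1 * X1 + u2 * X2) := by
  have e1 := sq_nonneg (ζ * X1 + 8 * k * u1)
  have e2 := sq_nonneg (ζ * X2 + 8 * k * u2)
  have e3 := mul_le_mul_of_nonneg_right hk2 (show (0 : ℝ) ≤ u1 ^ 2 + u2 ^ 2 by positivity)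
  linarith

theorem bn_s2 {ζ d z h11 h12 u1 u2 M κ : ℝ} (hd0 : 0 ≤ d) (hd : d ≤ M) (hκ : z ^ 2 ≤ κ) :
    -(1 / 2 * ζ ^ 2 * (d * (h11 ^ 2 + h12 ^ 2))) - 32 * M * κ * (u1 ^ 2 + u2 ^ 2) ≤
      8 * d * ζ * z * (u1 * h11 + u2 * h12) := by
  have e1 := mul_nonneg hd0 (sq_nonneg (ζ * h11 + 8 * z * u1))
  have e2 := mul_nonneg hd0 (sq_nonneg (ζ * h12 + 8 * z * u2))
  have hM0 : 0 ≤ M := hd0.trans hd
  have e3 : d * (z ^ 2 * (u1 ^ 2 + u2 ^ 2)) ≤ M * (κ * (u1 ^ 2 + u2 ^ 2)) :=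
    mul_le_mul hd (mul_le_mul_of_nonneg_right hκ (by positivity)) (by positivity) hM0
  linarith

theorem bn_young {lam d c p h : ℝ} (hlam : 0 < lam) (hd : lam ≤ d) :
    c * p * |h| ≤ 1 / 2 * (d * h ^ 2) + c ^ 2 / (2 * lam) * p ^ 2 := by
  have e0 : lam * h ^ 2 ≤ d * h ^ 2 := mul_le_mul_of_nonneg_right hd (sq_nonneg _)
  have e1 : |h| ^ 2 = h ^ 2 := sq_abs _
  have e3 : 1 / 2 * (lam * |h| ^ 2) + c ^ 2 / (2 * lam) * p ^ 2 - c * p * |h| =
      (lam * |h| - c * p) ^ 2 / (2 * lam) := by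
    field_simp
    ring
  have e4 : 0 ≤ (lam * |h| - c * p) ^ 2 / (2 * lam) := by positivity
  rw [e1] at e3
  linarith

/-- the lower bound of the first order terms -/
theorem bn_s3 {M lam b d u1 u2 h11 h12 h22 m1 m2 : ℝ} (hM : 1 ≤ M) (hlam : 0 < lam)
    (hb : |b| ≤ M) (hd : lam ≤ d)
    (hm1 : |m1| ≤ 3 * M * (1 + |u1| + |u2| + |h11| + |h12| + |h22|))
    (hm2 : |m2| ≤ 3 * M * (1 + |u1| + |u2| + |h11| + |h12| + |h22|)) :
    -(1 / 2 * ((b * h12 + h22) ^ 2 + d * (h11 ^ 2 + h12 ^ 2))) -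
      (bnc M lam * (|u1| + |u2|) ^ 2 + 6 * M * (|u1| + |u2|) + 6 * M * (|u1| + |u2|) ^ 2) ≤
      2 * (u1 * m1 + u2 * m2) := by
  have hM0 : 0 ≤ M := by linarith
  obtain ⟨p, hp⟩ : ∃ p, p = |u1| + |u2| := ⟨_, rfl⟩
  obtain ⟨X2, hX2⟩ : ∃ X2, X2 = b * h12 + h22 := ⟨_, rfl⟩
  have hp0 : 0 ≤ p := by rw [hp]; positivity
  have hh22 : |h22| ≤ |X2| + M * |h12| := by
    have e1 : h22 = X2 - b * h12 := by rw [hX2]; ring
    have e2 := abs_sub X2 (b * h12)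
    rw [← e1, abs_mul] at e2
    have e3 := mul_le_mul_of_nonneg_right hb (abs_nonneg h12)
    linarith
  have hm : |u1 * m1 + u2 * m2| ≤ p * (3 * M * (1 + p + |h11| + (1 + M) * |h12| + |X2|)) := by
    have e0 : 3 * M * (1 + |u1| + |u2| + |h11| + |h12| + |h22|) ≤
        3 * M * (1 + p + |h11| + (1 + M) * |h12| + |X2|) := by
      refine mul_le_mul_of_nonneg_left ?_ (by positivity)
      linarith
    have e1 := abs_add_le (u1 * m1) (u2 * m2)
    rw [abs_mul, abs_mul] at e1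
    have e2 := mul_le_mul_of_nonneg_left (hm1.trans e0) (abs_nonneg u1)
    have e3 := mul_le_mul_of_nonneg_left (hm2.trans e0) (abs_nonneg u2)
    have e4 : p * (3 * M * (1 + p + |h11| + (1 + M) * |h12| + |X2|)) =
        |u1| * (3 * M * (1 + p + |h11| + (1 + M) * |h12| + |X2|)) +
        |u2| * (3 * M * (1 + p + |h11| + (1 + M) * |h12| + |X2|)) := by
      rw [← add_mul, ← hp]
    rw [e4]
    linarith
  have hq1 := bn_young (c := 6 * M) (p := p) (h := h11) hlam hd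
  have hq2 := bn_young (c := 6 * M * (1 + M)) (p := p) (h := h12) hlam hd
  have hq3 := bn_young (lam := 1) (d := 1) (c := 6 * M) (p := p) (h := X2) one_pos le_rfl
  have e1 := neg_abs_le (u1 * m1 + u2 * m2)
  have e2 : bnc M lam * p ^ 2 = (6 * M) ^ 2 / (2 * lam) * p ^ 2 +
      (6 * M * (1 + M)) ^ 2 / (2 * lam) * p ^ 2 + (6 * M) ^ 2 / (2 * 1) * p ^ 2 := by
    unfold bnc
    field_simp
    ring
  rw [← hp, ← hX2, e2]
  have e3 : 2 * (p * (3 * M * (1 + p + |h11| + (1 + M) * |h12| + |X2|))) =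
      6 * M * p + 6 * M * p ^ 2 + 6 * M * p * |h11| + 6 * M * (1 + M) * p * |h12| +
        6 * M * p * |X2| := by ring
  linarith

theorem bn_s5 {M lam b d u1 u2 : ℝ} (hlam : 0 < lam) (hb : |b| ≤ M) (hd : lam ≤ d) :
    u1 ^ 2 + u2 ^ 2 ≤ bnc0 M lam * ((b * u1 + u2) ^ 2 + d * u1 ^ 2) := by
  obtain ⟨X0, hX0⟩ : ∃ X0, X0 = b * u1 + u2 := ⟨_, rfl⟩
  rw [← hX0]
  have hd0 : 0 < d := by linarith
  have e1 : u2 = X0 - b * u1 := by rw [hX0]; ring
  have e2 : b ^ 2 ≤ M ^ 2 := by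
    rw [← sq_abs]
    exact pow_le_pow_left₀ (abs_nonneg _) hb 2
  have e3 : u2 ^ 2 ≤ 2 * X0 ^ 2 + 2 * (M ^ 2 * u1 ^ 2) := by
    have f1 := mul_le_mul_of_nonneg_right e2 (sq_nonneg u1)
    have f2 := sq_nonneg (X0 + b * u1)
    rw [e1]
    linarith
  have e4 : u1 ^ 2 ≤ d * u1 ^ 2 / lam := by
    rw [le_div_iff₀ hlam]
    have := mul_le_mul_of_nonneg_right hd (sq_nonneg u1)
    linarith
  have e5 : bnc0 M lam * (X0 ^ 2 + d * u1 ^ 2) = 2 * X0 ^ 2 + 2 * (d * u1 ^ 2) +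
      (1 + 2 * M ^ 2) * (X0 ^ 2 / lam) + (1 + 2 * M ^ 2) * (d * u1 ^ 2 / lam) := by
    unfold bnc0
    field_simp
    ring
  have e7 : (1 + 2 * M ^ 2) * u1 ^ 2 ≤ (1 + 2 * M ^ 2) * (d * u1 ^ 2 / lam) :=
    mul_le_mul_of_nonneg_left e4 (by positivity)
  have e8 : 0 ≤ (1 + 2 * M ^ 2) * (X0 ^ 2 / lam) := by positivity
  have e9 : 0 ≤ d * u1 ^ 2 := by positivity
  rw [e5]
  linarith

theorem bn_alg {M K lam : ℝ} (hM : 1 ≤ M) (hlam : 0 < lam)
    {b d u1 u2 h11 h12 h22 F m1 m2 v ζ z1 z2 MS : ℝ}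
    (hb : |b| ≤ M) (hd : lam ≤ d) (hd' : d ≤ M) (hv : |v| ≤ M)
    (hζ : |ζ| ≤ K) (hz1 : |z1| ≤ K) (hz2 : |z2| ≤ K) (hMS : |MS| ≤ bnK2 M K)
    (hF : |F| ≤ M * (1 + |u1| + |u2|))
    (hm1 : |m1| ≤ 3 * M * (1 + |u1| + |u2| + |h11| + |h12| + |h22|))
    (hm2 : |m2| ≤ 3 * M * (1 + |u1| + |u2| + |h11| + |h12| + |h22|))
    (H : MS * (u1 ^ 2 + u2 ^ 2) +
        8 * ζ * (b * z1 + z2) * (u1 * (b * h11 + h12) + u2 * (b * h12 + h22)) +
        8 * d * ζ * z1 * (u1 * h11 + u2 * h12) +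
        2 * ζ ^ 2 * ((b * h11 + h12) ^ 2 + (b * h12 + h22) ^ 2 + d * (h11 ^ 2 + h12 ^ 2)) +
        2 * ζ ^ 2 * (u1 * m1 + u2 * m2) +
        bnN M K lam * (2 * ((b * u1 + u2) ^ 2 + d * u1 ^ 2) + 2 * v * F) ≤ 0) :
    u1 ^ 2 + u2 ^ 2 ≤ bnc9 M K lam + bnN M K lam * (2 * M ^ 2 + 2 * M ^ 4 * bnc0 M lam) := by
  have hM0 : 0 ≤ M := by linarith
  have hd0 : 0 ≤ d := by linarith
  have hk : |b * z1 + z2| ≤ (M + 1) * K := by
    have e1 := abs_add_le (b * z1) z2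
    have e2 : |b * z1| ≤ M * K := by
      rw [abs_mul]
      exact mul_le_mul hb hz1 (abs_nonneg _) hM0
    linarith
  have hk2 : (b * z1 + z2) ^ 2 ≤ ((M + 1) * K) ^ 2 := by
    rw [← sq_abs]
    exact pow_le_pow_left₀ (abs_nonneg _) hk 2
  have hz1' : z1 ^ 2 ≤ K ^ 2 := by
    rw [← sq_abs]
    exact pow_le_pow_left₀ (abs_nonneg _) hz1 2
  have hζ2 : ζ ^ 2 ≤ K ^ 2 := by
    rw [← sq_abs]
    exact pow_le_pow_left₀ (abs_nonneg _) hζ 2
  have s1 := bn_s1 (ζ := ζ) (X1 := b * h11 + h12) (X2 := b * h12 + h22) (u1 := u1) (u2 := u2) hk2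
  have s2 := bn_s2 (ζ := ζ) (h11 := h11) (h12 := h12) (u1 := u1) (u2 := u2) hd0 hd' hz1'
  have s3 := bn_s3 hM hlam hb hd hm1 hm2
  have s5 := bn_s5 (u1 := u1) (u2 := u2) hlam hb hd
  have hc0 : 0 ≤ bnc M lam := by unfold bnc; positivity
  have hc0' : 0 < bnc0 M lam := by unfold bnc0; positivity
  have hK2 : 0 ≤ bnK2 M K := (abs_nonneg _).trans hMS
  have hc9 : 0 ≤ bnc9 M K lam := by unfold bnc9; positivity
  have hN : 0 < bnN M K lam := by unfold bnN; positivity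
  obtain ⟨p, hp⟩ : ∃ p, p = |u1| + |u2| := ⟨_, rfl⟩
  obtain ⟨G, hG⟩ : ∃ G, G = u1 ^ 2 + u2 ^ 2 := ⟨_, rfl⟩
  obtain ⟨Q, hQ⟩ : ∃ Q, Q = (b * u1 + u2) ^ 2 + d * u1 ^ 2 := ⟨_, rfl⟩
  obtain ⟨A1, hA1⟩ : ∃ A1, A1 = (b * h11 + h12) ^ 2 := ⟨_, rfl⟩
  obtain ⟨A2, hA2⟩ : ∃ A2, A2 = (b * h12 + h22) ^ 2 := ⟨_, rfl⟩
  obtain ⟨A3, hA3⟩ : ∃ A3, A3 = d * (h11 ^ 2 + h12 ^ 2) := ⟨_, rfl⟩
  obtain ⟨T1, hT1⟩ : ∃ T1, T1 = 8 * ζ * (b * z1 + z2) *
    (u1 * (b * h11 + h12) + u2 * (b * h12 + h22)) := ⟨_, rfl⟩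
  obtain ⟨T2, hT2⟩ : ∃ T2, T2 = 8 * d * ζ * z1 * (u1 * h11 + u2 * h12) := ⟨_, rfl⟩
  obtain ⟨T3, hT3⟩ : ∃ T3, T3 = u1 * m1 + u2 * m2 := ⟨_, rfl⟩
  have hA1' : 0 ≤ A1 := by rw [hA1]; positivity
  have hA2' : 0 ≤ A2 := by rw [hA2]; positivity
  have hA3' : 0 ≤ A3 := by rw [hA3]; positivity
  have hp0 : 0 ≤ p := by rw [hp]; positivity
  have hG0 : 0 ≤ G := by rw [hG]; positivity
  have hpG : p ^ 2 ≤ 2 * G := by
    have e1 : |u1| ^ 2 = u1 ^ 2 := sq_abs u1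
    have e2 : |u2| ^ 2 = u2 ^ 2 := sq_abs u2
    have e3 := sq_nonneg (|u1| - |u2|)
    rw [hp, hG, ← e1, ← e2]
    linarith
  have hp1 : p ≤ 1 / 2 + G := by
    have := sq_nonneg (p - 1)
    linarith
  have hFp : |F| ≤ M * (1 + p) := by
    rw [hp, ← add_assoc]
    exact hF
  rw [← hG, ← hA1, ← hA2, ← hA3, ← hT1, ← hT2, ← hT3, ← hQ] at H
  rw [← hG, ← hA1, ← hA2, ← hT1] at s1
  rw [← hG, ← hA3, ← hT2] at s2
  rw [← hp, ← hA2, ← hA3, ← hT3] at s3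
  rw [← hG, ← hQ] at s5
  rw [← hG]
  clear hT1 hT2 hT3 hA1 hA2 hA3 hQ hm1 hm2 hF hG hp
  -- (s3')
  have s3' : -(1 / 2 * (ζ ^ 2 * (A2 + A3))) -
      K ^ 2 * (2 * bnc M lam + 18 * M) * (1 + G) ≤ 2 * (ζ ^ 2 * T3) := by
    have e1 := mul_le_mul_of_nonneg_left s3 (sq_nonneg ζ)
    have e3 : bnc M lam * p ^ 2 + 6 * M * p + 6 * M * p ^ 2 ≤
        (2 * bnc M lam + 18 * M) * (1 + G) := by
      have f1 := mul_le_mul_of_nonneg_left hpG hc0
      have f2 := mul_le_mul_of_nonneg_left hpG hM0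
      have f3 := mul_le_mul_of_nonneg_left hp1 hM0
      linarith
    have e4 : ζ ^ 2 * (bnc M lam * p ^ 2 + 6 * M * p + 6 * M * p ^ 2) ≤
        K ^ 2 * ((2 * bnc M lam + 18 * M) * (1 + G)) :=
      mul_le_mul hζ2 e3 (by positivity) (by positivity)
    linarith
  -- (s6)
  have s6 : -(2 * M ^ 2 + 2 * M ^ 2 * p) ≤ 2 * v * F := by
    have e1 : |v * F| ≤ M * (M * (1 + p)) := by
      rw [abs_mul]
      exact mul_le_mul hv hFp (abs_nonneg _) hM0
    have e2 := neg_abs_le (v * F)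
    linarith
  have s7 : -(bnK2 M K * G) ≤ MS * G := by
    have e1 := (abs_le.1 hMS).1
    have e2 := mul_le_mul_of_nonneg_right e1 hG0
    linarith
  -- bound of the last bracket
  have s8 : G / bnc0 M lam - 2 * M ^ 2 - 2 * M ^ 4 * bnc0 M lam ≤ 2 * Q + 2 * v * F := by
    have e1 : G / bnc0 M lam ≤ Q := by
      rw [div_le_iff₀ hc0']
      linarith
    have e2 : 2 * M ^ 2 * p ≤ G / bnc0 M lam + 2 * M ^ 4 * bnc0 M lam := by
      have f1 : p ^ 2 / (2 * bnc0 M lam) ≤ G / bnc0 M lam := by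
        rw [div_le_div_iff₀ (by positivity) hc0']
        have := mul_le_mul_of_nonneg_right hpG hc0'.le
        linarith
      have f2 : p ^ 2 / (2 * bnc0 M lam) + 2 * M ^ 4 * bnc0 M lam - 2 * M ^ 2 * p =
          (p - 2 * M ^ 2 * bnc0 M lam) ^ 2 / (2 * bnc0 M lam) := by
        field_simp
        ring
      have f3 : 0 ≤ (p - 2 * M ^ 2 * bnc0 M lam) ^ 2 / (2 * bnc0 M lam) := by positivity
      linarith
    linarith
  have s9 : bnN M K lam * (G / bnc0 M lam - 2 * M ^ 2 - 2 * M ^ 4 * bnc0 M lam) ≤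
      bnN M K lam * (2 * Q + 2 * v * F) :=
    mul_le_mul_of_nonneg_left s8 hN.le
  have s10 : bnN M K lam * (G / bnc0 M lam) = (bnc9 M K lam + 1) * G := by
    unfold bnN
    field_simp
  have s11 : bnc9 M K lam * G + bnc9 M K lam = bnK2 M K * G + 32 * ((M + 1) * K) ^ 2 * G +
      32 * M * K ^ 2 * G + K ^ 2 * (2 * bnc M lam + 18 * M) * (1 + G) +
      (bnK2 M K + 32 * ((M + 1) * K) ^ 2 + 32 * M * K ^ 2) := by
    unfold bnc9
    ring
  have s12 : 0 ≤ bnK2 M K + 32 * ((M + 1) * K) ^ 2 + 32 * M * K ^ 2 := by positivity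
  have s13 : 0 ≤ ζ ^ 2 * A1 := by positivity
  have s14 : 0 ≤ ζ ^ 2 * A2 := by positivity
  have s15 : 0 ≤ ζ ^ 2 * A3 := by positivity
  linarith

/-- second derivative along a line of the Bernstein function -/
theorem bn_phi {Z Z' P P' Q Q' V V' : ℝ → ℝ} {Z'' P'' Q'' V'' N : ℝ}
    (hZ : ∀ᶠ t in nhds (0 : ℝ), HasDerivAt Z (Z' t) t) (hZ' : HasDerivAt Z' Z'' 0)
    (hP : ∀ᶠ t in nhds (0 : ℝ), HasDerivAt P (P' t) t) (hP' : HasDerivAt P' P'' 0)
    (hQ : ∀ᶠ t in nhds (0 : ℝ), HasDerivAt Q (Q' t) t) (hQ' : HasDerivAt Q' Q'' 0)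
    (hV : ∀ᶠ t in nhds (0 : ℝ), HasDerivAt V (V' t) t) (hV' : HasDerivAt V' V'' 0)
    (hmax : IsLocalMax (fun t => Z t ^ 2 * (P t ^ 2 + Q t ^ 2) + N * V t ^ 2) 0) :
    (2 * Z' 0 ^ 2 + 2 * Z 0 * Z'') * (P 0 ^ 2 + Q 0 ^ 2) +
      8 * Z 0 * Z' 0 * (P 0 * P' 0 + Q 0 * Q' 0) +
      2 * Z 0 ^ 2 * (P' 0 ^ 2 + P 0 * P'' + Q' 0 ^ 2 + Q 0 * Q'') +
      2 * N * (V' 0 ^ 2 + V 0 * V'') ≤ 0 := by
  refine bn_second (φ' := fun t => 2 * Z t * Z' t * (P t ^ 2 + Q t ^ 2) +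
    Z t ^ 2 * (2 * P t * P' t + 2 * Q t * Q' t) + 2 * N * (V t * V' t)) ?_ ?_ hmax
  · filter_upwards [hZ, hP, hQ, hV] with t h1 h2 h3 h4
    have e1 := (h1.pow 2).mul ((h2.pow 2).add (h3.pow 2))
    have e2 := (h4.pow 2).const_mul N
    refine (e1.add e2).congr_deriv ?_
    simp only [Pi.pow_apply, Pi.add_apply]
    push_cast
    ring
  · have h1 := hZ.self_of_nhds
    have h2 := hP.self_of_nhds
    have h3 := hQ.self_of_nhds
    have h4 := hV.self_of_nhds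
    have e1 := ((h1.mul hZ').mul ((h2.pow 2).add (h3.pow 2))).const_mul 2
    have e2 := (h1.pow 2).mul (((h2.mul hP').add (h3.mul hQ')).const_mul 2)
    have e3 := (h4.mul hV').const_mul (2 * N)
    have e4 := (e1.add e2).add e3
    refine (HasDerivAt.congr_of_eventuallyEq (e4.congr_deriv ?_) ?_)
    · simp only [Pi.pow_apply, Pi.add_apply, Pi.mul_apply]
      push_cast
      ring
    · refine Filter.Eventually.of_forall fun t => ?_
      simp only [Pi.pow_apply, Pi.add_apply, Pi.mul_apply]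
      ring

/-- the cutoff -/
def bnZ (A B x y : ℝ) : ℝ := (A ^ 2 - x ^ 2) * (B ^ 2 - y ^ 2)

theorem bn_Z1 (A B x y al be t : ℝ) : HasDerivAt (fun t => bnZ A B (x + al * t) (y + be * t))
    (al * (-2 * (x + al * t) * (B ^ 2 - (y + be * t) ^ 2)) +
      be * (-2 * (y + be * t) * (A ^ 2 - (x + al * t) ^ 2))) t := by
  have e1 : HasDerivAt (fun t : ℝ => x + al * t) al t := by
    simpa using ((hasDerivAt_id t).const_mul al).const_add x
  have e2 : HasDerivAt (fun t : ℝ => y + be * t) be t := by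
    simpa using ((hasDerivAt_id t).const_mul be).const_add y
  have e3 := ((e1.pow 2).const_sub (A ^ 2)).mul ((e2.pow 2).const_sub (B ^ 2))
  refine e3.congr_deriv ?_
  simp only [Pi.pow_apply]
  push_cast
  ring

theorem bn_Z2 (A B x y al be : ℝ) :
    HasDerivAt (fun t => al * (-2 * (x + al * t) * (B ^ 2 - (y + be * t) ^ 2)) +
      be * (-2 * (y + be * t) * (A ^ 2 - (x + al * t) ^ 2)))
      (al ^ 2 * (-2 * (B ^ 2 - y ^ 2)) + 2 * al * be * (4 * x * y) +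
        be ^ 2 * (-2 * (A ^ 2 - x ^ 2))) 0 := by
  have e1 : HasDerivAt (fun t : ℝ => x + al * t) al 0 := by
    simpa using ((hasDerivAt_id (0 : ℝ)).const_mul al).const_add x
  have e2 : HasDerivAt (fun t : ℝ => y + be * t) be 0 := by
    simpa using ((hasDerivAt_id (0 : ℝ)).const_mul be).const_add y
  have e3 := (((e1.const_mul (-2)).mul ((e2.pow 2).const_sub (B ^ 2))).const_mul al).add
    (((e2.const_mul (-2)).mul ((e1.pow 2).const_sub (A ^ 2))).const_mul be)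
  refine e3.congr_deriv ?_
  simp only [Pi.pow_apply]
  push_cast
  ring

theorem bn_hx {f : ℝ → ℝ → ℝ} {U : Set (ℝ × ℝ)} (hU : IsOpen U)
    (hf : ContDiffOn ℝ ∞ (Function.uncurry f) U) {x y : ℝ} (hz : (x, y) ∈ U) :
    HasDerivAt (fun t => f t y) (dx f x y) x := by
  rw [bn_dx_fd hU hf hz]
  exact bn_dx_eq hU hf hz

theorem bn_hy {f : ℝ → ℝ → ℝ} {U : Set (ℝ × ℝ)} (hU : IsOpen U)
    (hf : ContDiffOn ℝ ∞ (Function.uncurry f) U) {x y : ℝ} (hz : (x, y) ∈ U) :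
    HasDerivAt (fun t => f x t) (dy f x y) y := by
  rw [bn_dy_fd hU hf hz]
  exact bn_dy_eq hU hf hz

/-- the differentiated equation -/
theorem bn_eq1 {a b v F : ℝ → ℝ → ℝ} {U : Set (ℝ × ℝ)} (hU : IsOpen U)
    (sa : ContDiffOn ℝ ∞ (Function.uncurry a) U) (sb : ContDiffOn ℝ ∞ (Function.uncurry b) U)
    (sv : ContDiffOn ℝ ∞ (Function.uncurry v) U)
    (eq : ∀ x y, (x, y) ∈ U →
      dy (dy v) x y + a x y * dx (dx v) x y + 2 * b x y * dy (dx v) x y = F x y)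
    {x y : ℝ} (hz : (x, y) ∈ U) :
    dy (dy (dx v)) x y + 2 * b x y * dy (dx (dx v)) x y + a x y * dx (dx (dx v)) x y =
      dx F x y - dx a x y * dx (dx v) x y - 2 * dx b x y * dy (dx v) x y ∧
    dy (dy (dy v)) x y + 2 * b x y * dy (dy (dx v)) x y + a x y * dy (dx (dx v)) x y =
      dy F x y - dy a x y * dx (dx v) x y - 2 * dy b x y * dy (dx v) x y := by
  have s1 := bn_smooth_dx hU sv
  have s2 := bn_smooth_dy hU sv
  have s11 := bn_smooth_dx hU s1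
  have s12 := bn_smooth_dy hU s1
  have s22 := bn_smooth_dy hU s2
  have c1 : dx (dy (dy v)) x y = dy (dy (dx v)) x y := by
    rw [← bn_schwarz hU s2 hz]
    exact bn_dy_congr hU (fun x y h => (bn_schwarz hU sv h).symm) hz
  have c2 : dx (dy (dx v)) x y = dy (dx (dx v)) x y := (bn_schwarz hU s1 hz).symm
  constructor
  · have e1 : dx F x y = dx (fun x y => dy (dy v) x y + a x y * dx (dx v) x y +
        2 * b x y * dy (dx v) x y) x y :=
      bn_dx_congr hU (fun x y h => (eq x y h).symm) hz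
    have e2 : HasDerivAt (fun t => dy (dy v) t y + a t y * dx (dx v) t y +
        2 * b t y * dy (dx v) t y) (dx (dy (dy v)) x y + (dx a x y * dx (dx v) x y +
          a x y * dx (dx (dx v)) x y) + ((2 * dx b x y) * dy (dx v) x y +
          (2 * b x y) * dx (dy (dx v)) x y)) x :=
      ((bn_hx hU s22 hz).add ((bn_hx hU sa hz).mul (bn_hx hU s11 hz))).add
        (((bn_hx hU sb hz).const_mul 2).mul (bn_hx hU s12 hz))
    have e3 : dx F x y = _ := e1.trans e2.deriv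
    rw [e3, c1, c2]
    ring
  · have e1 : dy F x y = dy (fun x y => dy (dy v) x y + a x y * dx (dx v) x y +
        2 * b x y * dy (dx v) x y) x y :=
      bn_dy_congr hU (fun x y h => (eq x y h).symm) hz
    have e2 : HasDerivAt (fun t => dy (dy v) x t + a x t * dx (dx v) x t +
        2 * b x t * dy (dx v) x t) (dy (dy (dy v)) x y + (dy a x y * dx (dx v) x y +
          a x y * dy (dx (dx v)) x y) + ((2 * dy b x y) * dy (dx v) x y +
          (2 * b x y) * dy (dy (dx v)) x y)) y :=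
      ((bn_hy hU s22 hz).add ((bn_hy hU sa hz).mul (bn_hy hU s11 hz))).add
        (((bn_hy hU sb hz).const_mul 2).mul (bn_hy hU s12 hz))
    have e3 : dy F x y = _ := e1.trans e2.deriv
    rw [e3]
    ring

/-- the second derivative test for the Bernstein function, direction `(al, be)` -/
theorem bn_dir {v : ℝ → ℝ → ℝ} {U : Set (ℝ × ℝ)} (hU : IsOpen U)
    (sv : ContDiffOn ℝ ∞ (Function.uncurry v) U) {x y A B N : ℝ} (hz : (x, y) ∈ U)
    (hmax : IsLocalMax (fun z : ℝ × ℝ => bnZ A B z.1 z.2 ^ 2 *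
      (dx v z.1 z.2 ^ 2 + dy v z.1 z.2 ^ 2) + N * v z.1 z.2 ^ 2) (x, y)) (al be : ℝ) :
    (2 * (al * (-2 * x * (B ^ 2 - y ^ 2)) + be * (-2 * y * (A ^ 2 - x ^ 2))) ^ 2 +
        2 * bnZ A B x y * (al ^ 2 * (-2 * (B ^ 2 - y ^ 2)) + 2 * al * be * (4 * x * y) +
          be ^ 2 * (-2 * (A ^ 2 - x ^ 2)))) * (dx v x y ^ 2 + dy v x y ^ 2) +
      8 * bnZ A B x y * (al * (-2 * x * (B ^ 2 - y ^ 2)) + be * (-2 * y * (A ^ 2 - x ^ 2))) *
        (dx v x y * (al * dx (dx v) x y + be * dy (dx v) x y) +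
          dy v x y * (al * dy (dx v) x y + be * dy (dy v) x y)) +
      2 * bnZ A B x y ^ 2 * ((al * dx (dx v) x y + be * dy (dx v) x y) ^ 2 +
        dx v x y * (al ^ 2 * dx (dx (dx v)) x y + 2 * al * be * dy (dx (dx v)) x y +
          be ^ 2 * dy (dy (dx v)) x y) +
        (al * dy (dx v) x y + be * dy (dy v) x y) ^ 2 +
        dy v x y * (al ^ 2 * dy (dx (dx v)) x y + 2 * al * be * dy (dy (dx v)) x y +
          be ^ 2 * dy (dy (dy v)) x y)) +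
      2 * N * ((al * dx v x y + be * dy v x y) ^ 2 +
        v x y * (al ^ 2 * dx (dx v) x y + 2 * al * be * dy (dx v) x y +
          be ^ 2 * dy (dy v) x y)) ≤ 0 := by
  have s1 := bn_smooth_dx hU sv
  have s2 := bn_smooth_dy hU sv
  have s11 := bn_smooth_dx hU s1
  have s12 := bn_smooth_dy hU s1
  have s21 := bn_smooth_dx hU s2
  have s22 := bn_smooth_dy hU s2
  have c0 : dx (dy v) x y = dy (dx v) x y := (bn_schwarz hU sv hz).symm
  have c1 : dx (dy (dy v)) x y = dy (dy (dx v)) x y := by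
    rw [← bn_schwarz hU s2 hz]
    exact bn_dy_congr hU (fun x y h => (bn_schwarz hU sv h).symm) hz
  have c2 : dx (dy (dx v)) x y = dy (dx (dx v)) x y := (bn_schwarz hU s1 hz).symm
  have c3 : dx (dx (dy v)) x y = dy (dx (dx v)) x y := by
    rw [← c2]
    exact bn_dx_congr hU (fun x y h => (bn_schwarz hU sv h).symm) hz
  have c4 : dy (dx (dy v)) x y = dy (dy (dx v)) x y :=
    bn_dy_congr hU (fun x y h => (bn_schwarz hU sv h).symm) hz
  -- the line stays in `U`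
  have hcont : Continuous (fun t : ℝ => ((x + al * t, y + be * t) : ℝ × ℝ)) := by fun_prop
  have h0 : ((x + al * 0, y + be * 0) : ℝ × ℝ) = (x, y) := by simp
  have hev : ∀ᶠ t in nhds (0 : ℝ), ((x + al * t, y + be * t) : ℝ × ℝ) ∈ U := by
    have : (fun t : ℝ => ((x + al * t, y + be * t) : ℝ × ℝ)) ⁻¹' U ∈ nhds (0 : ℝ) :=
      hcont.continuousAt.preimage_mem_nhds (hU.mem_nhds (by rw [h0]; exact hz))
    exact this
  have hz0 : ((x + al * 0, y + be * 0) : ℝ × ℝ) ∈ U := by rw [h0]; exact hz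
  have hmax' : IsLocalMax (fun t : ℝ => bnZ A B (x + al * t) (y + be * t) ^ 2 *
      ((dx v (x + al * t) (y + be * t)) ^ 2 + (dy v (x + al * t) (y + be * t)) ^ 2) +
      N * (v (x + al * t) (y + be * t)) ^ 2) 0 := by
    have h1 : Filter.Tendsto (fun t : ℝ => ((x + al * t, y + be * t) : ℝ × ℝ)) (nhds 0)
        (nhds (x, y)) := by
      have := hcont.tendsto 0
      rwa [h0] at this
    have h2 := h1.eventually hmax
    refine h2.mono fun t ht => ?_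
    simp only [mul_zero, add_zero]
    exact ht
  have key := bn_phi (Z := fun t => bnZ A B (x + al * t) (y + be * t))
    (P := fun t => dx v (x + al * t) (y + be * t))
    (Q := fun t => dy v (x + al * t) (y + be * t))
    (V := fun t => v (x + al * t) (y + be * t)) (N := N)
    (P' := fun t => al * dx (dx v) (x + al * t) (y + be * t) +
      be * dy (dx v) (x + al * t) (y + be * t))
    (Q' := fun t => al * dx (dy v) (x + al * t) (y + be * t) +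
      be * dy (dy v) (x + al * t) (y + be * t))
    (V' := fun t => al * dx v (x + al * t) (y + be * t) + be * dy v (x + al * t) (y + be * t))
    (Filter.Eventually.of_forall fun t => bn_Z1 A B x y al be t) (bn_Z2 A B x y al be)
    (hev.mono fun t ht => bn_line hU s1 ht)
    (((bn_line hU s11 hz0).const_mul al).add ((bn_line hU s12 hz0).const_mul be))
    (hev.mono fun t ht => bn_line hU s2 ht)
    (((bn_line hU s21 hz0).const_mul al).add ((bn_line hU s22 hz0).const_mul be))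
    (hev.mono fun t ht => bn_line hU sv ht)
    (((bn_line hU s1 hz0).const_mul al).add ((bn_line hU s2 hz0).const_mul be))
    hmax'
  simp only [mul_zero, add_zero] at key
  rw [c0, c1, c2, c3, c4] at key
  refine le_trans (le_of_eq ?_) key
  ring

/-- the open box -/
def OBox (A B : ℝ) : Set (ℝ × ℝ) := Ioo (-A) A ×ˢ Ioo (-B) B

theorem isOpen_OBox (A B : ℝ) : IsOpen (OBox A B) := isOpen_Ioo.prod isOpen_Ioo

theorem mem_OBox {A B x y : ℝ} : (x, y) ∈ OBox A B ↔ |x| < A ∧ |y| < B := by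
  unfold OBox
  rw [Set.mem_prod, Set.mem_Ioo, Set.mem_Ioo, abs_lt, abs_lt]

/-- hypotheses of the Bernstein estimate -/
structure BernHyp (A B M lam : ℝ) (a b v F : ℝ → ℝ → ℝ) : Prop where
  sa : ContDiffOn ℝ ∞ (Function.uncurry a) (OBox A B)
  sb : ContDiffOn ℝ ∞ (Function.uncurry b) (OBox A B)
  sv : ContDiffOn ℝ ∞ (Function.uncurry v) (OBox A B)
  sF : ContDiffOn ℝ ∞ (Function.uncurry F) (OBox A B)
  bv : ∀ x y : ℝ, |x| < A → |y| < B → |v x y| ≤ M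
  ell : ∀ x y : ℝ, |x| < A → |y| < B → lam ≤ a x y - b x y ^ 2
  ba : ∀ x y : ℝ, |x| < A → |y| < B → |a x y| ≤ M
  bb : ∀ x y : ℝ, |x| < A → |y| < B → |b x y| ≤ M
  ba1 : ∀ x y : ℝ, |x| < A → |y| < B → |dx a x y| ≤ M
  ba2 : ∀ x y : ℝ, |x| < A → |y| < B → |dy a x y| ≤ M
  bb1 : ∀ x y : ℝ, |x| < A → |y| < B → |dx b x y| ≤ M
  bb2 : ∀ x y : ℝ, |x| < A → |y| < B → |dy b x y| ≤ M
  eq : ∀ x y : ℝ, |x| < A → |y| < B →
    dy (dy v) x y + a x y * dx (dx v) x y + 2 * b x y * dy (dx v) x y = F x y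
  bF : ∀ x y : ℝ, |x| < A → |y| < B → |F x y| ≤ M * (1 + |dx v x y| + |dy v x y|)
  bF1 : ∀ x y : ℝ, |x| < A → |y| < B → |dx F x y| ≤
    M * (1 + |dx v x y| + |dy v x y| + |dx (dx v) x y| + |dy (dx v) x y| + |dy (dy v) x y|)
  bF2 : ∀ x y : ℝ, |x| < A → |y| < B → |dy F x y| ≤
    M * (1 + |dx v x y| + |dy v x y| + |dx (dx v) x y| + |dy (dx v) x y| + |dy (dy v) x y|)

/-- bounds of the jets of the cutoff -/
theorem bn_Zb {A B x y : ℝ} (hx : |x| ≤ A) (hy : |y| ≤ B) :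
    |bnZ A B x y| ≤ 2 * (1 + A ^ 2) * (1 + B ^ 2) ∧
    |-2 * x * (B ^ 2 - y ^ 2)| ≤ 2 * (1 + A ^ 2) * (1 + B ^ 2) ∧
    |-2 * y * (A ^ 2 - x ^ 2)| ≤ 2 * (1 + A ^ 2) * (1 + B ^ 2) ∧
    |-2 * (B ^ 2 - y ^ 2)| ≤ 2 * (1 + A ^ 2) * (1 + B ^ 2) ∧
    |4 * x * y| ≤ 2 * (1 + A ^ 2) * (1 + B ^ 2) ∧
    |-2 * (A ^ 2 - x ^ 2)| ≤ 2 * (1 + A ^ 2) * (1 + B ^ 2) := by
  have hA0 : 0 ≤ A := (abs_nonneg x).trans hx
  have hB0 : 0 ≤ B := (abs_nonneg y).trans hy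
  have hx2 : x ^ 2 ≤ A ^ 2 := by
    rw [← sq_abs]
    exact pow_le_pow_left₀ (abs_nonneg _) hx 2
  have hy2 : y ^ 2 ≤ B ^ 2 := by
    rw [← sq_abs]
    exact pow_le_pow_left₀ (abs_nonneg _) hy 2
  have a1 : |A ^ 2 - x ^ 2| ≤ A ^ 2 := by
    rw [abs_of_nonneg (by linarith)]
    linarith [sq_nonneg x]
  have b1 : |B ^ 2 - y ^ 2| ≤ B ^ 2 := by
    rw [abs_of_nonneg (by linarith)]
    linarith [sq_nonneg y]
  have a2 : 2 * A ≤ 1 + A ^ 2 := by linarith [sq_nonneg (A - 1)]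
  have b2 : 2 * B ≤ 1 + B ^ 2 := by linarith [sq_nonneg (B - 1)]
  have a3 : 2 * |x| ≤ 1 + A ^ 2 := by linarith
  have b3 : 2 * |y| ≤ 1 + B ^ 2 := by linarith
  have hA2 : 0 ≤ A ^ 2 := sq_nonneg _
  have hB2 : 0 ≤ B ^ 2 := sq_nonneg _
  have hAB : 0 ≤ A ^ 2 * B ^ 2 := by positivity
  refine ⟨?_, ?_, ?_, ?_, ?_, ?_⟩
  · unfold bnZ
    rw [abs_mul]
    have := mul_le_mul a1 b1 (abs_nonneg _) hA2
    nlinarith
  · rw [abs_mul, abs_mul, show |(-2 : ℝ)| = 2 by norm_num]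
    have := mul_le_mul a3 b1 (abs_nonneg _) (by positivity)
    nlinarith
  · rw [abs_mul, abs_mul, show |(-2 : ℝ)| = 2 by norm_num]
    have := mul_le_mul b3 a1 (abs_nonneg _) (by positivity)
    nlinarith
  · rw [abs_mul, show |(-2 : ℝ)| = 2 by norm_num]
    nlinarith
  · rw [abs_mul, abs_mul, show |(4 : ℝ)| = 4 by norm_num]
    have := mul_le_mul a3 b3 (by positivity) (by positivity)
    nlinarith [abs_nonneg x, abs_nonneg y]
  · rw [abs_mul, show |(-2 : ℝ)| = 2 by norm_num]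
    nlinarith

/-- bound at an interior maximum -/
theorem bn_point {A B A2 B2 M lam : ℝ} {a b v F : ℝ → ℝ → ℝ} (h : BernHyp A B M lam a b v F)
    (hM : 1 ≤ M) (hlam : 0 < lam) {x y : ℝ} (hx : |x| < A) (hy : |y| < B) (hx2 : |x| ≤ A2)
    (hy2 : |y| ≤ B2)
    (hmax : IsLocalMax (fun z : ℝ × ℝ => bnZ A2 B2 z.1 z.2 ^ 2 *
      (dx v z.1 z.2 ^ 2 + dy v z.1 z.2 ^ 2) +
        bnN M (2 * (1 + A2 ^ 2) * (1 + B2 ^ 2)) lam * v z.1 z.2 ^ 2) (x, y)) :
    dx v x y ^ 2 + dy v x y ^ 2 ≤ bnc9 M (2 * (1 + A2 ^ 2) * (1 + B2 ^ 2)) lam +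
      bnN M (2 * (1 + A2 ^ 2) * (1 + B2 ^ 2)) lam * (2 * M ^ 2 + 2 * M ^ 4 * bnc0 M lam) := by
  have hU := isOpen_OBox A B
  have hz : (x, y) ∈ OBox A B := mem_OBox.2 ⟨hx, hy⟩
  have hell := h.ell x y hx hy
  have hba := h.ba x y hx hy
  have hbb := h.bb x y hx hy
  have hbv := h.bv x y hx hy
  have hbF := h.bF x y hx hy
  have hbF1 := h.bF1 x y hx hy
  have hbF2 := h.bF2 x y hx hy
  have hba1 := h.ba1 x y hx hy
  have hba2 := h.ba2 x y hx hy
  have hbb1 := h.bb1 x y hx hy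
  have hbb2 := h.bb2 x y hx hy
  have heq := h.eq x y hx hy
  obtain ⟨m1e, m2e⟩ := bn_eq1 hU h.sa h.sb h.sv
    (fun x y hz => h.eq x y (mem_OBox.1 hz).1 (mem_OBox.1 hz).2) hz
  have k1 := bn_dir hU h.sv hz hmax (b x y) 1
  have k2 := bn_dir hU h.sv hz hmax 1 0
  obtain ⟨q1, q2, q3, q4, q5, q6⟩ := bn_Zb hx2 hy2
  obtain ⟨K, hK⟩ : ∃ K, K = 2 * (1 + A2 ^ 2) * (1 + B2 ^ 2) := ⟨_, rfl⟩
  rw [← hK] at q1 q2 q3 q4 q5 q6 k1 k2 ⊢
  generalize dy (dy (dx v)) x y = T122 at *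
  generalize dy (dx (dx v)) x y = T112 at *
  generalize dx (dx (dx v)) x y = T111 at *
  generalize dy (dy (dy v)) x y = T222 at *
  generalize dx (dx v) x y = h11 at *
  generalize dy (dx v) x y = h12 at *
  generalize dy (dy v) x y = h22 at *
  generalize dx v x y = u1 at *
  generalize dy v x y = u2 at *
  generalize v x y = v0 at *
  generalize b x y = b0 at *
  generalize a x y = a0 at *
  generalize F x y = F0 at *
  generalize bnZ A2 B2 x y = ζ at *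
  generalize -2 * x * (B2 ^ 2 - y ^ 2) = z1 at *
  generalize -2 * y * (A2 ^ 2 - x ^ 2) = z2 at *
  generalize -2 * (B2 ^ 2 - y ^ 2) = z11 at *
  generalize 4 * x * y = z12 at *
  generalize -2 * (A2 ^ 2 - x ^ 2) = z22 at *
  generalize dx a x y = a1 at *
  generalize dy a x y = a2 at *
  generalize dx b x y = b1 at *
  generalize dy b x y = b2 at *
  generalize dx F x y = F1 at *
  generalize dy F x y = F2 at *
  have hM0 : 0 ≤ M := by linarith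
  have hd0 : 0 ≤ a0 - b0 ^ 2 := by linarith
  have hdM : a0 - b0 ^ 2 ≤ M := by
    have := le_abs_self a0
    linarith [sq_nonneg b0]
  have hK0 : 0 ≤ K := (abs_nonneg _).trans q1
  refine bn_alg (K := K) (b := b0) (d := a0 - b0 ^ 2) (u1 := u1) (u2 := u2) (h11 := h11)
    (h12 := h12) (h22 := h22) (F := F0) (m1 := T122 + 2 * b0 * T112 + a0 * T111)
    (m2 := T222 + 2 * b0 * T122 + a0 * T112) (v := v0) (ζ := ζ) (z1 := z1) (z2 := z2)
    (MS := 2 * (b0 * z1 + z2) ^ 2 + 2 * ζ * (b0 ^ 2 * z11 + 2 * b0 * z12 + z22) +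
      (a0 - b0 ^ 2) * (2 * z1 ^ 2 + 2 * ζ * z11)) hM hlam hbb hell hdM hbv q1 q2 q3 ?_ hbF
      ?_ ?_ ?_
  · -- bound of MS
    have hk : |b0 * z1 + z2| ≤ (M + 1) * K := by
      have e1 := abs_add_le (b0 * z1) z2
      have e2 : |b0 * z1| ≤ M * K := by
        rw [abs_mul]
        exact mul_le_mul hbb q2 (abs_nonneg _) hM0
      linarith
    have hk2 : (b0 * z1 + z2) ^ 2 ≤ ((M + 1) * K) ^ 2 := by
      rw [← sq_abs]
      exact pow_le_pow_left₀ (abs_nonneg _) hk 2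
    have hz1' : z1 ^ 2 ≤ K ^ 2 := by
      rw [← sq_abs]
      exact pow_le_pow_left₀ (abs_nonneg _) q2 2
    have hb2' : |b0 ^ 2| ≤ M ^ 2 := by
      rw [abs_pow]
      exact pow_le_pow_left₀ (abs_nonneg _) hbb 2
    have e1 : |ζ * (b0 ^ 2 * z11 + 2 * b0 * z12 + z22)| ≤ K * ((M + 1) ^ 2 * K) := by
      rw [abs_mul]
      refine mul_le_mul q1 ?_ (abs_nonneg _) hK0
      have f1 := abs_add_le (b0 ^ 2 * z11 + 2 * b0 * z12) z22
      have f2 := abs_add_le (b0 ^ 2 * z11) (2 * b0 * z12)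
      have f3 : |b0 ^ 2 * z11| ≤ M ^ 2 * K := by
        rw [abs_mul]
        exact mul_le_mul hb2' q4 (abs_nonneg _) (by positivity)
      have f4 : |2 * b0 * z12| ≤ 2 * M * K := by
        rw [abs_mul, abs_mul, show |(2 : ℝ)| = 2 by norm_num]
        exact mul_le_mul (by linarith) q5 (abs_nonneg _) (by positivity)
      linarith
    have e2 : |ζ * z11| ≤ K * K := by
      rw [abs_mul]
      exact mul_le_mul q1 q4 (abs_nonneg _) hK0
    have e3 : |(a0 - b0 ^ 2) * (2 * z1 ^ 2 + 2 * ζ * z11)| ≤ M * (4 * K ^ 2) := by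
      rw [abs_mul, abs_of_nonneg hd0]
      refine mul_le_mul hdM ?_ (abs_nonneg _) hM0
      have f1 := abs_add_le (2 * z1 ^ 2) (2 * ζ * z11)
      have f2 : |2 * z1 ^ 2| = 2 * z1 ^ 2 := abs_of_nonneg (by positivity)
      have f3 : |2 * ζ * z11| = 2 * |ζ * z11| := by
        rw [mul_assoc, abs_mul, show |(2 : ℝ)| = 2 by norm_num]
      rw [f2, f3] at f1
      linarith
    have e4 := abs_add_le (2 * (b0 * z1 + z2) ^ 2 +
      2 * ζ * (b0 ^ 2 * z11 + 2 * b0 * z12 + z22)) ((a0 - b0 ^ 2) * (2 * z1 ^ 2 + 2 * ζ * z11))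
    have e5 := abs_add_le (2 * (b0 * z1 + z2) ^ 2)
      (2 * ζ * (b0 ^ 2 * z11 + 2 * b0 * z12 + z22))
    have e6 : |2 * (b0 * z1 + z2) ^ 2| = 2 * (b0 * z1 + z2) ^ 2 := abs_of_nonneg (by positivity)
    have e7 : |2 * ζ * (b0 ^ 2 * z11 + 2 * b0 * z12 + z22)| =
        2 * |ζ * (b0 ^ 2 * z11 + 2 * b0 * z12 + z22)| := by
      rw [mul_assoc, abs_mul, show |(2 : ℝ)| = 2 by norm_num]
    rw [e6, e7] at e5
    unfold bnK2
    linarith
  · -- m1
    rw [m1e]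
    have e1 := abs_sub (F1 - a1 * h11) (2 * b1 * h12)
    have e2 := abs_sub F1 (a1 * h11)
    have e3 : |a1 * h11| ≤ M * |h11| := by
      rw [abs_mul]
      exact mul_le_mul_of_nonneg_right hba1 (abs_nonneg _)
    have e4 : |2 * b1 * h12| ≤ 2 * M * |h12| := by
      rw [abs_mul, abs_mul, show |(2 : ℝ)| = 2 by norm_num]
      exact mul_le_mul_of_nonneg_right (by linarith) (abs_nonneg _)
    have e5 : 0 ≤ M * (1 + |u1| + |u2| + |h22|) := by positivity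
    have e6 : 0 ≤ M * |h11| := by positivity
    have e7 : 0 ≤ M * |h12| := by positivity
    linarith
  · -- m2
    rw [m2e]
    have e1 := abs_sub (F2 - a2 * h11) (2 * b2 * h12)
    have e2 := abs_sub F2 (a2 * h11)
    have e3 : |a2 * h11| ≤ M * |h11| := by
      rw [abs_mul]
      exact mul_le_mul_of_nonneg_right hba2 (abs_nonneg _)
    have e4 : |2 * b2 * h12| ≤ 2 * M * |h12| := by
      rw [abs_mul, abs_mul, show |(2 : ℝ)| = 2 by norm_num]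
      exact mul_le_mul_of_nonneg_right (by linarith) (abs_nonneg _)
    have e5 : 0 ≤ M * (1 + |u1| + |u2| + |h22|) := by positivity
    have e6 : 0 ≤ M * |h11| := by positivity
    have e7 : 0 ≤ M * |h12| := by positivity
    linarith
  · -- the inequality
    have e1 := mul_nonneg hd0 (neg_nonneg.2 k2)
    rw [← heq]
    refine le_trans (le_of_eq ?_) (add_nonpos k1 (neg_nonneg.1 (by rw [← mul_neg]; exact e1)))
    ring

theorem BernHyp.mono {A B M M' lam : ℝ} {a b v F : ℝ → ℝ → ℝ} (h : BernHyp A B M lam a b v F)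
    (hM : M ≤ M') : BernHyp A B M' lam a b v F where
  sa := h.sa
  sb := h.sb
  sv := h.sv
  sF := h.sF
  bv := fun x y hx hy => (h.bv x y hx hy).trans hM
  ell := h.ell
  ba := fun x y hx hy => (h.ba x y hx hy).trans hM
  bb := fun x y hx hy => (h.bb x y hx hy).trans hM
  ba1 := fun x y hx hy => (h.ba1 x y hx hy).trans hM
  ba2 := fun x y hx hy => (h.ba2 x y hx hy).trans hM
  bb1 := fun x y hx hy => (h.bb1 x y hx hy).trans hM
  bb2 := fun x y hx hy => (h.bb2 x y hx hy).trans hM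
  eq := h.eq
  bF := fun x y hx hy => (h.bF x y hx hy).trans (mul_le_mul_of_nonneg_right hM (by positivity))
  bF1 := fun x y hx hy => (h.bF1 x y hx hy).trans (mul_le_mul_of_nonneg_right hM (by positivity))
  bF2 := fun x y hx hy => (h.bF2 x y hx hy).trans (mul_le_mul_of_nonneg_right hM (by positivity))

/-- **Bernstein estimate.** -/
theorem bernstein {A A' B B' M lam : ℝ} (hA' : 0 < A') (hA : A' < A) (hB' : 0 < B') (hB : B' < B)
    (_hM : 0 ≤ M) (hlam : 0 < lam) :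
    ∃ C : ℝ, ∀ a b v F : ℝ → ℝ → ℝ, BernHyp A B M lam a b v F →
      ∀ x y : ℝ, |x| ≤ A' → |y| ≤ B' → |dx v x y| ≤ C ∧ |dy v x y| ≤ C := by
  obtain ⟨M1, hM1⟩ : ∃ M1, M1 = max M 1 := ⟨_, rfl⟩
  obtain ⟨A2, hA2⟩ : ∃ A2, A2 = (A + A') / 2 := ⟨_, rfl⟩
  obtain ⟨B2, hB2⟩ : ∃ B2, B2 = (B + B') / 2 := ⟨_, rfl⟩
  obtain ⟨K, hK⟩ : ∃ K, K = 2 * (1 + A2 ^ 2) * (1 + B2 ^ 2) := ⟨_, rfl⟩
  obtain ⟨C0, hC0⟩ : ∃ C0, C0 = bnc9 M1 K lam + bnN M1 K lam *
    (2 * M1 ^ 2 + 2 * M1 ^ 4 * bnc0 M1 lam) := ⟨_, rfl⟩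
  obtain ⟨N, hN⟩ : ∃ N, N = bnN M1 K lam := ⟨_, rfl⟩
  have hM11 : 1 ≤ M1 := by rw [hM1]; exact le_max_right _ _
  have hMM1 : M ≤ M1 := by rw [hM1]; exact le_max_left _ _
  have hK0 : 0 ≤ K := by rw [hK]; positivity
  have hK2 : 0 ≤ bnK2 M1 K := by unfold bnK2; positivity
  have hc : 0 ≤ bnc M1 lam := by unfold bnc; positivity
  have hc0' : 0 < bnc0 M1 lam := by unfold bnc0; positivity
  have hc9 : 0 ≤ bnc9 M1 K lam := by unfold bnc9; positivity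
  have hN0 : 0 ≤ N := by rw [hN]; unfold bnN; positivity
  have hC00 : 0 ≤ C0 := by rw [hC0, ← hN]; positivity
  have hAA2 : A' < A2 := by rw [hA2]; linarith
  have hBB2 : B' < B2 := by rw [hB2]; linarith
  have hA2A : A2 < A := by rw [hA2]; linarith
  have hB2B : B2 < B := by rw [hB2]; linarith
  have hA20 : 0 < A2 := by linarith
  have hB20 : 0 < B2 := by linarith
  obtain ⟨z0, hz0⟩ : ∃ z0, z0 = (A2 ^ 2 - A' ^ 2) * (B2 ^ 2 - B' ^ 2) := ⟨_, rfl⟩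
  have hza : 0 < A2 ^ 2 - A' ^ 2 := by nlinarith
  have hzb : 0 < B2 ^ 2 - B' ^ 2 := by nlinarith
  have hz00 : 0 < z0 := by rw [hz0]; positivity
  refine ⟨1 + (K ^ 2 * C0 + N * M1 ^ 2) / z0 ^ 2, ?_⟩
  intro a b v F h0 x y hx hy
  have h := h0.mono hMM1
  have hU := isOpen_OBox A B
  -- the function
  obtain ⟨Φ, hΦ⟩ : ∃ Φ : ℝ × ℝ → ℝ, Φ = fun z => bnZ A2 B2 z.1 z.2 ^ 2 *
    (dx v z.1 z.2 ^ 2 + dy v z.1 z.2 ^ 2) + N * v z.1 z.2 ^ 2 := ⟨_, rfl⟩
  have hsub : Icc (-A2) A2 ×ˢ Icc (-B2) B2 ⊆ OBox A B := by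
    rintro ⟨p, q⟩ ⟨h1, h2⟩
    refine ⟨⟨by linarith [h1.1], by linarith [h1.2]⟩, ⟨by linarith [h2.1], by linarith [h2.2]⟩⟩
  have hcont : ContinuousOn Φ (Icc (-A2) A2 ×ˢ Icc (-B2) B2) := by
    rw [hΦ]
    have c1 : ContinuousOn (fun z : ℝ × ℝ => dx v z.1 z.2) (Icc (-A2) A2 ×ˢ Icc (-B2) B2) :=
      (bn_smooth_dx hU h.sv).continuousOn.mono hsub
    have c2 : ContinuousOn (fun z : ℝ × ℝ => dy v z.1 z.2) (Icc (-A2) A2 ×ˢ Icc (-B2) B2) :=
      (bn_smooth_dy hU h.sv).continuousOn.mono hsub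
    have c3 : ContinuousOn (fun z : ℝ × ℝ => v z.1 z.2) (Icc (-A2) A2 ×ˢ Icc (-B2) B2) :=
      h.sv.continuousOn.mono hsub
    have c4 : Continuous (fun z : ℝ × ℝ => bnZ A2 B2 z.1 z.2) := by
      unfold bnZ
      fun_prop
    exact ((c4.continuousOn.pow 2).mul ((c1.pow 2).add (c2.pow 2))).add
      (continuousOn_const.mul (c3.pow 2))
  have hcomp : IsCompact (Icc (-A2) A2 ×ˢ Icc (-B2) B2) := isCompact_Icc.prod isCompact_Icc
  have hne : (Icc (-A2) A2 ×ˢ Icc (-B2) B2).Nonempty :=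
    ⟨(0, 0), ⟨⟨by linarith, by linarith⟩, ⟨by linarith, by linarith⟩⟩⟩
  obtain ⟨⟨p, q⟩, hpq, hmx⟩ := hcomp.exists_isMaxOn hne hcont
  have hp : |p| ≤ A2 := abs_le.2 ⟨hpq.1.1, hpq.1.2⟩
  have hq : |q| ≤ B2 := abs_le.2 ⟨hpq.2.1, hpq.2.2⟩
  have hpA : |p| < A := lt_of_le_of_lt hp hA2A
  have hqB : |q| < B := lt_of_le_of_lt hq hB2B
  have hvb : v p q ^ 2 ≤ M1 ^ 2 := by
    rw [← sq_abs]
    exact pow_le_pow_left₀ (abs_nonneg _) (h.bv p q hpA hqB) 2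
  have hNv : N * v p q ^ 2 ≤ N * M1 ^ 2 := mul_le_mul_of_nonneg_left hvb hN0
  -- bound of the maximum
  have hbound : Φ (p, q) ≤ K ^ 2 * C0 + N * M1 ^ 2 := by
    by_cases hin : |p| < A2 ∧ |q| < B2
    · have hloc : IsLocalMax Φ (p, q) := by
        refine (hmx.isLocalMax ?_)
        refine prod_mem_nhds ?_ ?_
        · exact Icc_mem_nhds (abs_lt.1 hin.1).1 (abs_lt.1 hin.1).2
        · exact Icc_mem_nhds (abs_lt.1 hin.2).1 (abs_lt.1 hin.2).2
      rw [hΦ, hN, hK] at hloc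
      have hpt := bn_point h hM11 hlam hpA hqB hp hq hloc
      rw [← hK, ← hC0] at hpt
      have hZ := (bn_Zb hp hq).1
      rw [← hK] at hZ
      have hZ2 : bnZ A2 B2 p q ^ 2 ≤ K ^ 2 := by
        rw [← sq_abs]
        exact pow_le_pow_left₀ (abs_nonneg _) hZ 2
      rw [hΦ]
      have := mul_le_mul hZ2 hpt (by positivity) (by positivity)
      simp only
      linarith
    · have hZ0 : bnZ A2 B2 p q = 0 := by
        unfold bnZ
        rcases not_and_or.1 hin with h1 | h1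
        · have h2 : |p| = A2 := le_antisymm hp (not_lt.1 h1)
          rw [← h2, sq_abs, sub_self, zero_mul]
        · have h2 : |q| = B2 := le_antisymm hq (not_lt.1 h1)
          rw [← h2, sq_abs q, sub_self, mul_zero]
      rw [hΦ]
      simp only
      rw [hZ0]
      have : 0 ≤ K ^ 2 * C0 := by positivity
      linarith
  -- conclusion
  have hxy : (x, y) ∈ Icc (-A2) A2 ×ˢ Icc (-B2) B2 := by
    refine ⟨abs_le.1 (by linarith), abs_le.1 (by linarith)⟩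
  have h1 : Φ (x, y) ≤ K ^ 2 * C0 + N * M1 ^ 2 := (hmx hxy).trans hbound
  have hZge : z0 ≤ bnZ A2 B2 x y := by
    rw [hz0]
    unfold bnZ
    have e1 : x ^ 2 ≤ A' ^ 2 := by
      rw [← sq_abs]
      exact pow_le_pow_left₀ (abs_nonneg _) hx 2
    have e2 : y ^ 2 ≤ B' ^ 2 := by
      rw [← sq_abs]
      exact pow_le_pow_left₀ (abs_nonneg _) hy 2
    exact mul_le_mul (by linarith) (by linarith) hzb.le (by linarith)
  have hZ2 : z0 ^ 2 ≤ bnZ A2 B2 x y ^ 2 := pow_le_pow_left₀ hz00.le hZge 2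
  have hG : dx v x y ^ 2 + dy v x y ^ 2 ≤ (K ^ 2 * C0 + N * M1 ^ 2) / z0 ^ 2 := by
    rw [le_div_iff₀ (by positivity)]
    rw [hΦ] at h1
    simp only at h1
    have e1 := mul_le_mul_of_nonneg_left hZ2
      (show (0 : ℝ) ≤ dx v x y ^ 2 + dy v x y ^ 2 by positivity)
    have e2 : 0 ≤ N * v x y ^ 2 := by positivity
    linarith
  have ab : ∀ t : ℝ, |t| ≤ 1 + t ^ 2 := fun t => by
    have : |t| ^ 2 = t ^ 2 := sq_abs t
    nlinarith [sq_nonneg (|t| - 1), abs_nonneg t]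
  constructor
  · have := ab (dx v x y)
    linarith [sq_nonneg (dy v x y)]
  · have := ab (dy v x y)
    linarith [sq_nonneg (dx v x y)]

end P229.C
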