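import Vale.Agent.P229.Defs

/-!
# P229 block C: calculus of `dx`, `dy` on open sets   (helper46)
-/

namespace P229.C

open Set Real Function
open scoped ContDiff

variable {S : Set (ℝ × ℝ)} {g h : ℝ → ℝ → ℝ} {x y : ℝ}

theorem hasFDerivAt_of (hS : IsOpen S) (hg : ContDiffOn ℝ ∞ (uncurry g) S) (hz : (x, y) ∈ S) :
    HasFDerivAt (uncurry g) (fderiv ℝ (uncurry g) (x, y)) (x, y) :=
  (((hg (x, y) hz).contDiffAt (hS.mem_nhds hz)).differentiableAt (by simp)).hasFDerivAt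

/-- derivative along a line. -/
theorem hasDerivAt_line (hS : IsOpen S) (hg : ContDiffOn ℝ ∞ (uncurry g) S) (a b t : ℝ)
    (hz : (x + t * a, y + t * b) ∈ S) :
    HasDerivAt (fun t => g (x + t * a) (y + t * b))
      (fderiv ℝ (uncurry g) (x + t * a, y + t * b) (a, b)) t := by
  have h1 := hasFDerivAt_of hS hg hz
  have h2 : HasDerivAt (fun t : ℝ => (x + t * a, y + t * b)) (a, b) t := by
    have e1 : HasDerivAt (fun t : ℝ => x + t * a) a t := by
      simpa using ((hasDerivAt_id t).mul_const a).const_add x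
    have e2 : HasDerivAt (fun t : ℝ => y + t * b) b t := by
      simpa using ((hasDerivAt_id t).mul_const b).const_add y
    exact e1.prodMk e2
  exact h1.comp_hasDerivAt t h2

theorem hasDerivAt_dx' (hS : IsOpen S) (hg : ContDiffOn ℝ ∞ (uncurry g) S) (hz : (x, y) ∈ S) :
    HasDerivAt (fun t => g t y) (fderiv ℝ (uncurry g) (x, y) (1, 0)) x := by
  have h1 := hasFDerivAt_of hS hg hz
  have h2 : HasDerivAt (fun t : ℝ => (t, y)) ((1 : ℝ), (0 : ℝ)) x :=
    (hasDerivAt_id x).prodMk (hasDerivAt_const x y)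
  exact HasFDerivAt.comp_hasDerivAt (f := fun t : ℝ => (t, y)) x h1 h2

theorem hasDerivAt_dy' (hS : IsOpen S) (hg : ContDiffOn ℝ ∞ (uncurry g) S) (hz : (x, y) ∈ S) :
    HasDerivAt (fun t => g x t) (fderiv ℝ (uncurry g) (x, y) (0, 1)) y := by
  have h1 := hasFDerivAt_of hS hg hz
  have h2 : HasDerivAt (fun t : ℝ => (x, t)) ((0 : ℝ), (1 : ℝ)) y :=
    (hasDerivAt_const y x).prodMk (hasDerivAt_id y)
  exact HasFDerivAt.comp_hasDerivAt (f := fun t : ℝ => (x, t)) y h1 h2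

theorem dx_eq (hS : IsOpen S) (hg : ContDiffOn ℝ ∞ (uncurry g) S) (hz : (x, y) ∈ S) :
    dx g x y = fderiv ℝ (uncurry g) (x, y) (1, 0) :=
  (hasDerivAt_dx' hS hg hz).deriv

theorem dy_eq (hS : IsOpen S) (hg : ContDiffOn ℝ ∞ (uncurry g) S) (hz : (x, y) ∈ S) :
    dy g x y = fderiv ℝ (uncurry g) (x, y) (0, 1) :=
  (hasDerivAt_dy' hS hg hz).deriv

theorem hasDerivAt_dx (hS : IsOpen S) (hg : ContDiffOn ℝ ∞ (uncurry g) S) (hz : (x, y) ∈ S) :
    HasDerivAt (fun t => g t y) (dx g x y) x := by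
  rw [dx_eq hS hg hz]; exact hasDerivAt_dx' hS hg hz

theorem hasDerivAt_dy (hS : IsOpen S) (hg : ContDiffOn ℝ ∞ (uncurry g) S) (hz : (x, y) ∈ S) :
    HasDerivAt (fun t => g x t) (dy g x y) y := by
  rw [dy_eq hS hg hz]; exact hasDerivAt_dy' hS hg hz

theorem fderiv_apply (hS : IsOpen S) (hg : ContDiffOn ℝ ∞ (uncurry g) S) (hz : (x, y) ∈ S)
    (a b : ℝ) : fderiv ℝ (uncurry g) (x, y) (a, b) = a * dx g x y + b * dy g x y := by
  rw [dx_eq hS hg hz, dy_eq hS hg hz]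
  have e : ((a, b) : ℝ × ℝ) = a • ((1 : ℝ), (0 : ℝ)) + b • ((0 : ℝ), (1 : ℝ)) := by simp
  rw [e, map_add, map_smul, map_smul, smul_eq_mul, smul_eq_mul]

/-- derivative along a line, with partial derivatives. -/
theorem hasDerivAt_line' (hS : IsOpen S) (hg : ContDiffOn ℝ ∞ (uncurry g) S) (a b t : ℝ)
    (hz : (x + t * a, y + t * b) ∈ S) :
    HasDerivAt (fun t => g (x + t * a) (y + t * b))
      (a * dx g (x + t * a) (y + t * b) + b * dy g (x + t * a) (y + t * b)) t := by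
  rw [← fderiv_apply hS hg hz]
  exact hasDerivAt_line hS hg a b t hz

theorem contDiffOn_dir (hS : IsOpen S) (hg : ContDiffOn ℝ ∞ (uncurry g) S) (ξ : ℝ × ℝ) :
    ContDiffOn ℝ ∞ (fun z => fderiv ℝ (uncurry g) z ξ) S :=
  (hg.fderiv_of_isOpen hS (m := ∞) (by simp)).clm_apply contDiffOn_const

theorem contDiffOn_dx (hS : IsOpen S) (hg : ContDiffOn ℝ ∞ (uncurry g) S) :
    ContDiffOn ℝ ∞ (uncurry (dx g)) S :=
  (contDiffOn_dir hS hg (1, 0)).congr (fun z hz => dx_eq (x := z.1) (y := z.2) hS hg hz)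

theorem contDiffOn_dy (hS : IsOpen S) (hg : ContDiffOn ℝ ∞ (uncurry g) S) :
    ContDiffOn ℝ ∞ (uncurry (dy g)) S :=
  (contDiffOn_dir hS hg (0, 1)).congr (fun z hz => dy_eq (x := z.1) (y := z.2) hS hg hz)

theorem eventually_dx (hS : IsOpen S) (hz : (x, y) ∈ S) : ∀ᶠ t in nhds x, (t, y) ∈ S := by
  have h2 : ContinuousAt (fun t : ℝ => (t, y)) x := by fun_prop
  exact h2.preimage_mem_nhds (hS.mem_nhds hz)

theorem eventually_dy (hS : IsOpen S) (hz : (x, y) ∈ S) : ∀ᶠ t in nhds y, (x, t) ∈ S := by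
  have h2 : ContinuousAt (fun t : ℝ => (x, t)) y := by fun_prop
  exact h2.preimage_mem_nhds (hS.mem_nhds hz)

theorem dx_congr (hS : IsOpen S) (he : ∀ x y, (x, y) ∈ S → g x y = h x y) (hz : (x, y) ∈ S) :
    dx g x y = dx h x y := by
  unfold dx
  apply Filter.EventuallyEq.deriv_eq
  filter_upwards [eventually_dx hS hz] with t ht using he t y ht

theorem dy_congr (hS : IsOpen S) (he : ∀ x y, (x, y) ∈ S → g x y = h x y) (hz : (x, y) ∈ S) :
    dy g x y = dy h x y := by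
  unfold dy
  apply Filter.EventuallyEq.deriv_eq
  filter_upwards [eventually_dy hS hz] with t ht using he x t ht

theorem dx_add (hS : IsOpen S) (hg : ContDiffOn ℝ ∞ (uncurry g) S)
    (hh : ContDiffOn ℝ ∞ (uncurry h) S) (hz : (x, y) ∈ S) :
    dx (fun x y => g x y + h x y) x y = dx g x y + dx h x y :=
  ((hasDerivAt_dx hS hg hz).add (hasDerivAt_dx hS hh hz)).deriv

theorem dy_add (hS : IsOpen S) (hg : ContDiffOn ℝ ∞ (uncurry g) S)
    (hh : ContDiffOn ℝ ∞ (uncurry h) S) (hz : (x, y) ∈ S) :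
    dy (fun x y => g x y + h x y) x y = dy g x y + dy h x y :=
  ((hasDerivAt_dy hS hg hz).add (hasDerivAt_dy hS hh hz)).deriv

theorem dx_mul (hS : IsOpen S) (hg : ContDiffOn ℝ ∞ (uncurry g) S)
    (hh : ContDiffOn ℝ ∞ (uncurry h) S) (hz : (x, y) ∈ S) :
    dx (fun x y => g x y * h x y) x y = g x y * dx h x y + h x y * dx g x y := by
  have h1 := ((hasDerivAt_dx hS hg hz).mul (hasDerivAt_dx hS hh hz)).deriv
  have h2 : dx (fun x y => g x y * h x y) x y = dx g x y * h x y + g x y * dx h x y := h1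
  rw [h2]; ring

theorem dy_mul (hS : IsOpen S) (hg : ContDiffOn ℝ ∞ (uncurry g) S)
    (hh : ContDiffOn ℝ ∞ (uncurry h) S) (hz : (x, y) ∈ S) :
    dy (fun x y => g x y * h x y) x y = g x y * dy h x y + h x y * dy g x y := by
  have h1 := ((hasDerivAt_dy hS hg hz).mul (hasDerivAt_dy hS hh hz)).deriv
  have h2 : dy (fun x y => g x y * h x y) x y = dy g x y * h x y + g x y * dy h x y := h1
  rw [h2]; ring

theorem dx_neg (x y : ℝ) : dx (fun x y => -(g x y)) x y = -dx g x y := by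
  unfold dx; exact deriv.fun_neg

theorem dy_neg (x y : ℝ) : dy (fun x y => -(g x y)) x y = -dy g x y := by
  unfold dy; exact deriv.fun_neg

theorem dx_const_mul (c x y : ℝ) : dx (fun x y => c * g x y) x y = c * dx g x y := by
  unfold dx
  exact deriv_const_mul_field c

theorem dy_const_mul (c x y : ℝ) : dy (fun x y => c * g x y) x y = c * dy g x y := by
  unfold dy
  exact deriv_const_mul_field c

theorem dx_const (c x y : ℝ) : dx (fun _ _ => c) x y = 0 := by
  unfold dx; exact deriv_const _ _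

theorem dy_const (c x y : ℝ) : dy (fun _ _ => c) x y = 0 := by
  unfold dy; exact deriv_const _ _

/-- symmetry of second derivatives. -/
theorem dx_dy (hS : IsOpen S) (hg : ContDiffOn ℝ ∞ (uncurry g) S) (hz : (x, y) ∈ S) :
    dx (dy g) x y = dy (dx g) x y := by
  have h1 : ContDiffAt ℝ ∞ (uncurry g) (x, y) := (hg (x, y) hz).contDiffAt (hS.mem_nhds hz)
  have hsym : IsSymmSndFDerivAt ℝ (uncurry g) (x, y) := h1.isSymmSndFDerivAt (by
    simp only [minSmoothness_of_isRCLikeNormedField]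
    exact WithTop.coe_le_coe.2 (le_top : (2 : ℕ∞) ≤ ⊤))
  have hd : DifferentiableAt ℝ (fderiv ℝ (uncurry g)) (x, y) :=
    ((h1.fderiv_right (m := ∞) (by simp)).differentiableAt (by simp))
  have e1 : ∀ ξ η : ℝ × ℝ, fderiv ℝ (fun z => fderiv ℝ (uncurry g) z ξ) (x, y) η
      = fderiv ℝ (fderiv ℝ (uncurry g)) (x, y) η ξ := by
    intro ξ η
    have h3 := hd.hasFDerivAt.clm_apply (hasFDerivAt_const ξ (x, y))
    have h4 := h3.fderiv
    rw [h4]
    simp
  have hx : (fun z => fderiv ℝ (uncurry g) z (1, 0)) =ᶠ[nhds (x, y)] uncurry (dx g) := by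
    filter_upwards [hS.mem_nhds hz] with z hz'
    exact (dx_eq (x := z.1) (y := z.2) hS hg hz').symm
  have hy : (fun z => fderiv ℝ (uncurry g) z (0, 1)) =ᶠ[nhds (x, y)] uncurry (dy g) := by
    filter_upwards [hS.mem_nhds hz] with z hz'
    exact (dy_eq (x := z.1) (y := z.2) hS hg hz').symm
  rw [dx_eq hS (contDiffOn_dy hS hg) hz, dy_eq hS (contDiffOn_dx hS hg) hz, ← hy.fderiv_eq,
    ← hx.fderiv_eq, e1, e1]
  exact hsym _ _

end P229.C
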