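import Vale.Agent.P229.C.Calc
import Vale.Agent.P229.C.Alg
import Vale.Agent.P229.C.Bern

/-!
# P229 block C: the ring of families of smooth functions on a box, and the induction (helper46)
-/

namespace P229.C

open Set Real Function
open scoped ContDiff

section

variable {ι : Type*} {A B : ℝ}

open Classical in
/-- extension by zero of a function on the box. -/
noncomputable def ext0 (f : OBox A B → ℝ) : ℝ → ℝ → ℝ :=
  fun x y => if h : (x, y) ∈ OBox A B then f ⟨(x, y), h⟩ else 0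

theorem ext0_of_mem (f : OBox A B → ℝ) {x y : ℝ} (h : (x, y) ∈ OBox A B) :
    ext0 f x y = f ⟨(x, y), h⟩ := dif_pos h

theorem ext0_add (f g : OBox A B → ℝ) :
    ext0 (f + g) = fun x y => ext0 f x y + ext0 g x y := by
  funext x y
  unfold ext0
  split_ifs <;> simp

theorem ext0_mul (f g : OBox A B → ℝ) :
    ext0 (f * g) = fun x y => ext0 f x y * ext0 g x y := by
  funext x y
  unfold ext0
  split_ifs <;> simp

theorem ext0_smul (c : ℝ) (f : OBox A B → ℝ) :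
    ext0 (c • f) = fun x y => c * ext0 f x y := by
  funext x y
  unfold ext0
  split_ifs <;> simp

theorem ext0_congr (F : ℝ → ℝ → ℝ) {x y : ℝ} (h : (x, y) ∈ OBox A B) :
    ext0 (fun z : OBox A B => F z.1.1 z.1.2) x y = F x y := ext0_of_mem _ h

/-- smooth functions on the box. -/
def Sm (f : OBox A B → ℝ) : Prop := ContDiffOn ℝ ∞ (uncurry (ext0 f)) (OBox A B)

theorem Sm.of (F : ℝ → ℝ → ℝ) (hF : ContDiffOn ℝ ∞ (uncurry F) (OBox A B)) :
    Sm (fun z : OBox A B => F z.1.1 z.1.2) :=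
  hF.congr (fun _ hz => ext0_of_mem _ hz)

theorem Sm.add {f g : OBox A B → ℝ} (hf : Sm f) (hg : Sm g) : Sm (f + g) := by
  unfold Sm
  rw [ext0_add]
  exact ContDiffOn.add hf hg

theorem Sm.mul {f g : OBox A B → ℝ} (hf : Sm f) (hg : Sm g) : Sm (f * g) := by
  unfold Sm
  rw [ext0_mul]
  exact ContDiffOn.mul hf hg

theorem Sm.const (c : ℝ) : Sm (fun _ : OBox A B => c) :=
  Sm.of (fun _ _ => c) contDiffOn_const

variable (ι A B) in
/-- the ring of families of smooth functions on the box. -/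
def SFam : Subalgebra ℝ (ι → OBox A B → ℝ) where
  carrier := {f | ∀ i, Sm (f i)}
  mul_mem' hf hg i := (hf i).mul (hg i)
  add_mem' hf hg i := (hf i).add (hg i)
  algebraMap_mem' c _ := Sm.const c

/-- the family given by smooth functions. -/
def mkF (F : ι → ℝ → ℝ → ℝ) (hF : ∀ i, ContDiffOn ℝ ∞ (uncurry (F i)) (OBox A B)) :
    SFam ι A B := ⟨fun i z => F i z.1.1 z.1.2, fun i => Sm.of (F i) (hF i)⟩

theorem sm_dx {f : OBox A B → ℝ} (hf : Sm f) :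
    Sm (fun z : OBox A B => dx (ext0 f) z.1.1 z.1.2) :=
  Sm.of _ (contDiffOn_dx (isOpen_OBox A B) hf)

theorem sm_dy {f : OBox A B → ℝ} (hf : Sm f) :
    Sm (fun z : OBox A B => dy (ext0 f) z.1.1 z.1.2) :=
  Sm.of _ (contDiffOn_dy (isOpen_OBox A B) hf)

variable (ι A B) in
/-- partial derivative in the first variable, as a derivation. -/
noncomputable def D1 : Derivation ℝ (SFam ι A B) (SFam ι A B) :=
  Derivation.mk'
    { toFun := fun f => ⟨fun i z => dx (ext0 (f.1 i)) z.1.1 z.1.2, fun i => sm_dx (f.2 i)⟩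
      map_add' := by
        intro f g
        ext i z
        change dx (ext0 (f.1 i + g.1 i)) z.1.1 z.1.2 = _
        rw [ext0_add]
        exact dx_add (isOpen_OBox A B) (f.2 i) (g.2 i) z.2
      map_smul' := by
        intro c f
        ext i z
        change dx (ext0 (c • f.1 i)) z.1.1 z.1.2 = _
        rw [ext0_smul]
        exact dx_const_mul c _ _ }
    (by
      intro f g
      ext i z
      change dx (ext0 (f.1 i * g.1 i)) z.1.1 z.1.2 = f.1 i z * dx (ext0 (g.1 i)) z.1.1 z.1.2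
        + g.1 i z * dx (ext0 (f.1 i)) z.1.1 z.1.2
      rw [ext0_mul, dx_mul (isOpen_OBox A B) (f.2 i) (g.2 i) z.2, ext0_of_mem (f.1 i) z.2,
        ext0_of_mem (g.1 i) z.2])

variable (ι A B) in
/-- partial derivative in the second variable, as a derivation. -/
noncomputable def D2 : Derivation ℝ (SFam ι A B) (SFam ι A B) :=
  Derivation.mk'
    { toFun := fun f => ⟨fun i z => dy (ext0 (f.1 i)) z.1.1 z.1.2, fun i => sm_dy (f.2 i)⟩
      map_add' := by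
        intro f g
        ext i z
        change dy (ext0 (f.1 i + g.1 i)) z.1.1 z.1.2 = _
        rw [ext0_add]
        exact dy_add (isOpen_OBox A B) (f.2 i) (g.2 i) z.2
      map_smul' := by
        intro c f
        ext i z
        change dy (ext0 (c • f.1 i)) z.1.1 z.1.2 = _
        rw [ext0_smul]
        exact dy_const_mul c _ _ }
    (by
      intro f g
      ext i z
      change dy (ext0 (f.1 i * g.1 i)) z.1.1 z.1.2 = f.1 i z * dy (ext0 (g.1 i)) z.1.1 z.1.2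
        + g.1 i z * dy (ext0 (f.1 i)) z.1.1 z.1.2
      rw [ext0_mul, dy_mul (isOpen_OBox A B) (f.2 i) (g.2 i) z.2, ext0_of_mem (f.1 i) z.2,
        ext0_of_mem (g.1 i) z.2])

theorem D1_apply (f : SFam ι A B) (i : ι) (z : OBox A B) :
    (D1 ι A B f).1 i z = dx (ext0 (f.1 i)) z.1.1 z.1.2 := rfl

theorem D2_apply (f : SFam ι A B) (i : ι) (z : OBox A B) :
    (D2 ι A B f).1 i z = dy (ext0 (f.1 i)) z.1.1 z.1.2 := rfl

theorem ext0_D1 (f : SFam ι A B) (i : ι) {x y : ℝ} (h : (x, y) ∈ OBox A B) :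
    ext0 ((D1 ι A B f).1 i) x y = dx (ext0 (f.1 i)) x y := ext0_of_mem _ h

theorem ext0_D2 (f : SFam ι A B) (i : ι) {x y : ℝ} (h : (x, y) ∈ OBox A B) :
    ext0 ((D2 ι A B f).1 i) x y = dy (ext0 (f.1 i)) x y := ext0_of_mem _ h

theorem dx_ext0_D1 (f : SFam ι A B) (i : ι) {x y : ℝ} (h : (x, y) ∈ OBox A B) :
    dx (ext0 ((D1 ι A B f).1 i)) x y = dx (dx (ext0 (f.1 i))) x y :=
  dx_congr (isOpen_OBox A B) (fun _ _ hz => ext0_D1 f i hz) h

theorem dy_ext0_D1 (f : SFam ι A B) (i : ι) {x y : ℝ} (h : (x, y) ∈ OBox A B) :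
    dy (ext0 ((D1 ι A B f).1 i)) x y = dy (dx (ext0 (f.1 i))) x y :=
  dy_congr (isOpen_OBox A B) (fun _ _ hz => ext0_D1 f i hz) h

theorem dx_ext0_D2 (f : SFam ι A B) (i : ι) {x y : ℝ} (h : (x, y) ∈ OBox A B) :
    dx (ext0 ((D2 ι A B f).1 i)) x y = dx (dy (ext0 (f.1 i))) x y :=
  dx_congr (isOpen_OBox A B) (fun _ _ hz => ext0_D2 f i hz) h

theorem dy_ext0_D2 (f : SFam ι A B) (i : ι) {x y : ℝ} (h : (x, y) ∈ OBox A B) :
    dy (ext0 ((D2 ι A B f).1 i)) x y = dy (dy (ext0 (f.1 i))) x y :=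
  dy_congr (isOpen_OBox A B) (fun _ _ hz => ext0_D2 f i hz) h

theorem D_comm (f : SFam ι A B) : D1 ι A B (D2 ι A B f) = D2 ι A B (D1 ι A B f) := by
  ext i z
  change dx (ext0 ((D2 ι A B f).1 i)) z.1.1 z.1.2 = dy (ext0 ((D1 ι A B f).1 i)) z.1.1 z.1.2
  rw [dx_ext0_D2 f i z.2, dy_ext0_D1 f i z.2]
  exact dx_dy (isOpen_OBox A B) (f.2 i) z.2

variable (ι A B) in
/-- families bounded, uniformly in the index, on the smaller box of ratio `ρ`. -/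
def bddR (ρ : ℝ) : Subring (SFam ι A B) where
  carrier := {f | ∃ C : ℝ, ∀ i (z : OBox A B), z.1 ∈ OBox (ρ * A) (ρ * B) → |f.1 i z| ≤ C}
  mul_mem' := by
    rintro f g ⟨C, hC⟩ ⟨C', hC'⟩
    refine ⟨C * C', fun i z hz => ?_⟩
    change |f.1 i z * g.1 i z| ≤ _
    rw [abs_mul]
    exact mul_le_mul (hC i z hz) (hC' i z hz) (abs_nonneg _) ((abs_nonneg _).trans (hC i z hz))
  one_mem' := ⟨1, fun i z _ => by change |(1 : ℝ)| ≤ 1; simp⟩
  add_mem' := by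
    rintro f g ⟨C, hC⟩ ⟨C', hC'⟩
    refine ⟨C + C', fun i z hz => ?_⟩
    change |f.1 i z + g.1 i z| ≤ _
    exact (abs_add_le _ _).trans (add_le_add (hC i z hz) (hC' i z hz))
  zero_mem' := ⟨0, fun i z _ => by change |(0 : ℝ)| ≤ 0; simp⟩
  neg_mem' := by
    rintro f ⟨C, hC⟩
    refine ⟨C, fun i z hz => ?_⟩
    change |-(f.1 i z)| ≤ _
    rw [abs_neg]
    exact hC i z hz

theorem mem_bddR {ρ : ℝ} {f : SFam ι A B} :
    f ∈ bddR ι A B ρ ↔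
      ∃ C : ℝ, ∀ i (z : OBox A B), z.1 ∈ OBox (ρ * A) (ρ * B) → |f.1 i z| ≤ C := Iff.rfl

theorem common {ρ : ℝ} (l : List (SFam ι A B)) (hl : ∀ f ∈ l, f ∈ bddR ι A B ρ) :
    ∃ M : ℝ, 0 ≤ M ∧ ∀ f ∈ l, ∀ i (z : OBox A B), z.1 ∈ OBox (ρ * A) (ρ * B) →
      |f.1 i z| ≤ M := by
  induction l with
  | nil => exact ⟨0, le_rfl, by simp⟩
  | cons g l ih =>
    obtain ⟨M, hM, h1⟩ := ih (fun f hf => hl f (List.mem_cons_of_mem _ hf))
    obtain ⟨C, hC⟩ := hl g List.mem_cons_self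
    refine ⟨max M C, hM.trans (le_max_left _ _), ?_⟩
    intro f hf i z hz
    rcases List.mem_cons.1 hf with rfl | hf
    · exact (hC i z hz).trans (le_max_right _ _)
    · exact (h1 f hf i z hz).trans (le_max_left _ _)

theorem five {M : ℝ} {s1 s2 s3 s4 s5 t1 t2 t3 t4 t5 : ℝ} (hM : 0 ≤ M) (h1 : |s1| ≤ M)
    (h2 : |s2| ≤ M) (h3 : |s3| ≤ M) (h4 : |s4| ≤ M) (h5 : |s5| ≤ M) :
    |s1 * t1 + s2 * t2 + s3 * t3 + s4 * t4 + s5| ≤
      M * (1 + |t3| + |t4| + |t1| + |t2| + |t5|) := by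
  have gen : ∀ s t : ℝ, |s| ≤ M → |s * t| ≤ M * |t| := by
    intro s t h1
    rw [abs_mul]
    exact mul_le_mul_of_nonneg_right h1 (abs_nonneg _)
  have g1 := gen s1 t1 h1
  have g2 := gen s2 t2 h2
  have g3 := gen s3 t3 h3
  have g4 := gen s4 t4 h4
  have t6 : 0 ≤ M * |t5| := mul_nonneg hM (abs_nonneg _)
  refine (abs_add_le _ _).trans ?_
  refine (add_le_add ((abs_add_le _ _).trans (add_le_add ((abs_add_le _ _).trans
    (add_le_add ((abs_add_le _ _).trans (add_le_add g1 g2)) g3)) g4)) h5).trans ?_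
  linarith

/-- The hypotheses of the Bernstein estimate for the `m`-th derivative of `G`. -/
theorem bernHyp_of {Z : Subring (SFam ι A B)} {G H K a b f : SFam ι A B} (hA : 0 < A)
    (hB : 0 < B) (h : Rel (D1 ι A B) (D2 ι A B) Z G H K a b f) {lam : ℝ}
    (hell : ∀ i z, lam ≤ a.1 i z - b.1 i z ^ 2) {m : ℕ} (hm : 1 ≤ m) {ρ : ℝ}
    (h1' : ρ < 1) (hbd : AA (D1 ι A B) Z G H m ≤ bddR ι A B ρ) :
    ∃ (M : ℝ) (F : SFam ι A B), 0 ≤ M ∧ ∀ i, BernHyp (ρ * A) (ρ * B) M lam (ext0 (a.1 i))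
      (ext0 (b.1 i)) (ext0 (((⇑(D1 ι A B))^[m] G).1 i)) (ext0 (F.1 i)) := by
  obtain ⟨α, hα, β, hβ, γ, hγ, hF⟩ := h.equation m
  have hFa : Aff (AA (D1 ι A B) Z G H 0) (AA (D1 ι A B) Z G H m)
      (D1 ι A B ((⇑(D1 ι A B))^[m] G)) (D2 ι A B ((⇑(D1 ι A B))^[m] G))
      (α * D1 ι A B ((⇑(D1 ι A B))^[m] G) + β * D2 ι A B ((⇑(D1 ι A B))^[m] G) + γ) :=
    ⟨α, hα, β, hβ, γ, hγ, rfl⟩
  obtain ⟨c1, hc1, c2, hc2, c3, hc3, c4, hc4, c5, hc5, hE1⟩ :=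
    h.deriv_rhs hm hFa (D1 ι A B) (Or.inl rfl)
  obtain ⟨d1, hd1, d2, hd2, d3, hd3, d4, hd4, d5, hd5, hE2⟩ :=
    h.deriv_rhs hm hFa (D2 ι A B) (Or.inr rfl)
  have hA0 : AA (D1 ι A B) Z G H 0 ≤ AA (D1 ι A B) Z G H m := AA_mono (Nat.zero_le m)
  have hA1 : AA (D1 ι A B) Z G H 1 ≤ AA (D1 ι A B) Z G H m := AA_mono hm
  have hvm : (⇑(D1 ι A B))^[m] G ∈ AA (D1 ι A B) Z G H m := G_mem (le_refl m)
  obtain ⟨M, hM0, hM⟩ := common (ρ := ρ) [a, b, D1 ι A B a, D2 ι A B a, D1 ι A B b,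
    D2 ι A B b, (⇑(D1 ι A B))^[m] G, α, β, γ, c1, c2, c3, c4, c5, d1, d2, d3, d4, d5] (by
      intro g hg
      simp only [List.mem_cons, List.not_mem_nil, or_false] at hg
      rcases hg with rfl | rfl | rfl | rfl | rfl | rfl | rfl | rfl | rfl | rfl | rfl | rfl |
        rfl | rfl | rfl | rfl | rfl | rfl | rfl | rfl
      · exact hbd (Z_le_AA m h.ha)
      · exact hbd (Z_le_AA m h.hb)
      · exact hbd (hA1 (h.D1_mem (Z_le_AA 0 h.ha)))
      · exact hbd (hA1 (h.D2_mem (Z_le_AA 0 h.ha)))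
      · exact hbd (hA1 (h.D1_mem (Z_le_AA 0 h.hb)))
      · exact hbd (hA1 (h.D2_mem (Z_le_AA 0 h.hb)))
      · exact hbd hvm
      · exact hbd (hA0 hα)
      · exact hbd (hA0 hβ)
      · exact hbd hγ
      · exact hbd hc1
      · exact hbd hc2
      · exact hbd hc3
      · exact hbd hc4
      · exact hbd hc5
      · exact hbd hd1
      · exact hbd hd2
      · exact hbd hd3
      · exact hbd hd4
      · exact hbd hd5)
  simp only [List.mem_cons, List.not_mem_nil, or_false, forall_eq_or_imp, forall_eq] at hM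
  obtain ⟨ma, mb, ma1, ma2, mb1, mb2, mv, mα, mβ, mγ, mc1, mc2, mc3, mc4, mc5, md1, md2, md3,
    md4, md5⟩ := hM
  have hsub : ∀ x y : ℝ, |x| < ρ * A → |y| < ρ * B → (x, y) ∈ OBox A B := by
    intro x y hx hy
    refine mem_OBox.2 ⟨hx.trans ?_, hy.trans ?_⟩
    · nlinarith
    · nlinarith
  have hsubset : OBox (ρ * A) (ρ * B) ⊆ OBox A B := by
    rintro ⟨x, y⟩ hz
    rw [mem_OBox] at hz
    exact hsub x y hz.1 hz.2
  have hin : ∀ x y : ℝ, |x| < ρ * A → |y| < ρ * B → (x, y) ∈ OBox (ρ * A) (ρ * B) :=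
    fun x y hx hy => mem_OBox.2 ⟨hx, hy⟩
  generalize hv : (⇑(D1 ι A B))^[m] G = v at *
  generalize hFdef : α * D1 ι A B v + β * D2 ι A B v + γ = F at *
  refine ⟨M, F, hM0, fun i => ?_⟩
  refine ⟨(a.2 i).mono hsubset, (b.2 i).mono hsubset, (v.2 i).mono hsubset,
      (F.2 i).mono hsubset, ?_, ?_, ?_, ?_, ?_, ?_, ?_, ?_, ?_, ?_, ?_, ?_⟩
  · intro x y hx hy
    rw [ext0_of_mem _ (hsub x y hx hy)]
    exact mv i ⟨(x, y), hsub x y hx hy⟩ (hin x y hx hy)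
  · intro x y hx hy
    rw [ext0_of_mem _ (hsub x y hx hy), ext0_of_mem _ (hsub x y hx hy)]
    exact hell i _
  · intro x y hx hy
    rw [ext0_of_mem _ (hsub x y hx hy)]
    exact ma i ⟨(x, y), hsub x y hx hy⟩ (hin x y hx hy)
  · intro x y hx hy
    rw [ext0_of_mem _ (hsub x y hx hy)]
    exact mb i ⟨(x, y), hsub x y hx hy⟩ (hin x y hx hy)
  · intro x y hx hy
    exact ma1 i ⟨(x, y), hsub x y hx hy⟩ (hin x y hx hy)
  · intro x y hx hy
    exact ma2 i ⟨(x, y), hsub x y hx hy⟩ (hin x y hx hy)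
  · intro x y hx hy
    exact mb1 i ⟨(x, y), hsub x y hx hy⟩ (hin x y hx hy)
  · intro x y hx hy
    exact mb2 i ⟨(x, y), hsub x y hx hy⟩ (hin x y hx hy)
  · intro x y hx hy
    have hz := hsub x y hx hy
    have e := congrArg (fun g : SFam ι A B => g.1 i ⟨(x, y), hz⟩) hF
    change dy (ext0 ((D2 ι A B v).1 i)) x y + a.1 i ⟨(x, y), hz⟩ *
      dx (ext0 ((D1 ι A B v).1 i)) x y + 2 * b.1 i ⟨(x, y), hz⟩ *
      dx (ext0 ((D2 ι A B v).1 i)) x y = F.1 i ⟨(x, y), hz⟩ at e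
    rw [dy_ext0_D2 v i hz, dx_ext0_D1 v i hz, dx_ext0_D2 v i hz,
      dx_dy (isOpen_OBox A B) (v.2 i) hz] at e
    rw [ext0_of_mem _ hz, ext0_of_mem _ hz, ext0_of_mem _ hz]
    exact e
  · intro x y hx hy
    have hz := hsub x y hx hy
    have hz' := hin x y hx hy
    rw [ext0_of_mem _ hz]
    have e : F.1 i ⟨(x, y), hz⟩ = α.1 i ⟨(x, y), hz⟩ * dx (ext0 (v.1 i)) x y
      + β.1 i ⟨(x, y), hz⟩ * dy (ext0 (v.1 i)) x y + γ.1 i ⟨(x, y), hz⟩ := by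
      rw [← hFdef]
      rfl
    rw [e]
    have b0 : |(0 : ℝ)| ≤ M := by simpa using hM0
    have h5 := five (t1 := 0) (t2 := 0) (t3 := dx (ext0 (v.1 i)) x y)
      (t4 := dy (ext0 (v.1 i)) x y) (t5 := 0) hM0 b0 b0 (mα i ⟨(x, y), hz⟩ hz')
      (mβ i ⟨(x, y), hz⟩ hz') (mγ i ⟨(x, y), hz⟩ hz')
    simpa using h5
  · intro x y hx hy
    have hz := hsub x y hx hy
    have hz' := hin x y hx hy
    have e : dx (ext0 (F.1 i)) x y = c1.1 i ⟨(x, y), hz⟩ * dx (ext0 ((D1 ι A B v).1 i)) x y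
      + c2.1 i ⟨(x, y), hz⟩ * dx (ext0 ((D2 ι A B v).1 i)) x y
      + c3.1 i ⟨(x, y), hz⟩ * dx (ext0 (v.1 i)) x y
      + c4.1 i ⟨(x, y), hz⟩ * dy (ext0 (v.1 i)) x y + c5.1 i ⟨(x, y), hz⟩ :=
      congrArg (fun g : SFam ι A B => g.1 i ⟨(x, y), hz⟩) hE1
    rw [dx_ext0_D1 v i hz, dx_ext0_D2 v i hz, dx_dy (isOpen_OBox A B) (v.2 i) hz] at e
    rw [e]
    exact five hM0 (mc1 i ⟨(x, y), hz⟩ hz') (mc2 i ⟨(x, y), hz⟩ hz')
      (mc3 i ⟨(x, y), hz⟩ hz') (mc4 i ⟨(x, y), hz⟩ hz') (mc5 i ⟨(x, y), hz⟩ hz')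
  · intro x y hx hy
    have hz := hsub x y hx hy
    have hz' := hin x y hx hy
    have e : dy (ext0 (F.1 i)) x y = d1.1 i ⟨(x, y), hz⟩ * dy (ext0 ((D1 ι A B v).1 i)) x y
      + d2.1 i ⟨(x, y), hz⟩ * dy (ext0 ((D2 ι A B v).1 i)) x y
      + d3.1 i ⟨(x, y), hz⟩ * dx (ext0 (v.1 i)) x y
      + d4.1 i ⟨(x, y), hz⟩ * dy (ext0 (v.1 i)) x y + d5.1 i ⟨(x, y), hz⟩ :=
      congrArg (fun g : SFam ι A B => g.1 i ⟨(x, y), hz⟩) hE2
    rw [dy_ext0_D1 v i hz, dy_ext0_D2 v i hz] at e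
    rw [e]
    have h5 := five (t1 := dy (dx (ext0 (v.1 i))) x y) (t2 := dy (dy (ext0 (v.1 i))) x y)
      (t3 := dx (ext0 (v.1 i)) x y) (t4 := dy (ext0 (v.1 i)) x y)
      (t5 := dx (dx (ext0 (v.1 i))) x y) hM0 (md1 i ⟨(x, y), hz⟩ hz')
      (md2 i ⟨(x, y), hz⟩ hz') (md3 i ⟨(x, y), hz⟩ hz') (md4 i ⟨(x, y), hz⟩ hz')
      (md5 i ⟨(x, y), hz⟩ hz')
    refine h5.trans (mul_le_mul_of_nonneg_left ?_ hM0)
    linarith

/-- One step of the induction. -/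
theorem step {Z : Subring (SFam ι A B)} {G H K a b f : SFam ι A B} (hA : 0 < A) (hB : 0 < B)
    (h : Rel (D1 ι A B) (D2 ι A B) Z G H K a b f) {lam : ℝ} (hlam : 0 < lam)
    (hell : ∀ i z, lam ≤ a.1 i z - b.1 i z ^ 2) {m : ℕ} (hm : 1 ≤ m)
    (hb : ∀ ρ : ℝ, 0 < ρ → ρ < 1 → AA (D1 ι A B) Z G H m ≤ bddR ι A B ρ) :
    ∀ ρ : ℝ, 0 < ρ → ρ < 1 → AA (D1 ι A B) Z G H (m + 1) ≤ bddR ι A B ρ := by
  intro ρ h0 h1
  obtain ⟨ρ', hρ, h1'⟩ := exists_between h1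
  have h0' : 0 < ρ' := h0.trans hρ
  obtain ⟨M, F, hM0, key⟩ := bernHyp_of hA hB h hell hm h1' (hb ρ' h0' h1')
  have hA2 : ρ * A < ρ' * A := mul_lt_mul_of_pos_right hρ hA
  have hB2 : ρ * B < ρ' * B := mul_lt_mul_of_pos_right hρ hB
  obtain ⟨C, hC⟩ := bernstein (mul_pos h0 hA) hA2 (mul_pos h0 hB) hB2 hM0 hlam
  have hG1 : (⇑(D1 ι A B))^[m + 1] G ∈ bddR ι A B ρ := by
    refine ⟨C, fun i z hz => ?_⟩
    have hz2 := mem_OBox.1 (show (z.1.1, z.1.2) ∈ OBox (ρ * A) (ρ * B) from hz)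
    rw [← iter_succ]
    exact (hC _ _ _ _ (key i) z.1.1 z.1.2 hz2.1.le hz2.2.le).1
  have hH1 : (⇑(D1 ι A B))^[m + 1] H ∈ bddR ι A B ρ := by
    refine ⟨C, fun i z hz => ?_⟩
    have hz2 := mem_OBox.1 (show (z.1.1, z.1.2) ∈ OBox (ρ * A) (ρ * B) from hz)
    rw [← h.D2_G]
    exact (hC _ _ _ _ (key i) z.1.1 z.1.2 hz2.1.le hz2.2.le).2
  have hbm := hb ρ h0 h1
  apply (Subring.closure_le).2
  rintro x (hx | ⟨i, hi, hx | hx⟩)
  · exact hbm (Z_le_AA m hx)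
  · subst hx
    rcases Nat.lt_or_ge i (m + 1) with hi' | hi'
    · exact hbm (G_mem (by omega))
    · have : i = m + 1 := le_antisymm hi hi'
      subst this
      exact hG1
  · subst hx
    rcases Nat.lt_or_ge i (m + 1) with hi' | hi'
    · exact hbm (H_mem (by omega))
    · have : i = m + 1 := le_antisymm hi hi'
      subst this
      exact hH1

/-- **All derivatives of `G` in the first variable are bounded, uniformly in the family.** -/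
theorem all_bounded {Z : Subring (SFam ι A B)} {G H K a b f : SFam ι A B} (hA : 0 < A)
    (hB : 0 < B) (h : Rel (D1 ι A B) (D2 ι A B) Z G H K a b f) {lam : ℝ} (hlam : 0 < lam)
    (hell : ∀ i z, lam ≤ a.1 i z - b.1 i z ^ 2)
    (hZ : ∀ ρ : ℝ, 0 < ρ → ρ < 1 → Z ≤ bddR ι A B ρ)
    (hG0 : ∀ ρ : ℝ, 0 < ρ → ρ < 1 → G ∈ bddR ι A B ρ)
    (hH0 : ∀ ρ : ℝ, 0 < ρ → ρ < 1 → H ∈ bddR ι A B ρ)
    (hG1 : ∀ ρ : ℝ, 0 < ρ → ρ < 1 → D1 ι A B G ∈ bddR ι A B ρ)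
    (hH1 : ∀ ρ : ℝ, 0 < ρ → ρ < 1 → D1 ι A B H ∈ bddR ι A B ρ) (m : ℕ) :
    ∀ ρ : ℝ, 0 < ρ → ρ < 1 → (⇑(D1 ι A B))^[m] G ∈ bddR ι A B ρ := by
  have main : ∀ m : ℕ, ∀ ρ : ℝ, 0 < ρ → ρ < 1 →
      AA (D1 ι A B) Z G H (m + 1) ≤ bddR ι A B ρ := by
    intro m
    induction m with
    | zero =>
      intro ρ h0 h1
      apply (Subring.closure_le).2
      rintro x (hx | ⟨i, hi, hx | hx⟩)
      · exact hZ ρ h0 h1 hx
      · subst hx
        have : i = 0 ∨ i = 1 := by omega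
        rcases this with rfl | rfl
        · exact hG0 ρ h0 h1
        · exact hG1 ρ h0 h1
      · subst hx
        have : i = 0 ∨ i = 1 := by omega
        rcases this with rfl | rfl
        · exact hH0 ρ h0 h1
        · exact hH1 ρ h0 h1
    | succ m ih => exact step hA hB h hlam hell (Nat.succ_le_succ (Nat.zero_le m)) ih
  intro ρ h0 h1
  exact main m ρ h0 h1 (G_mem (Nat.le_succ m))

end

end P229.C
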