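import Vale.Agent.P229.C.Plateau
import Vale.Agent.P229.C.Ring

/-!
# P229 block C: the families attached to `GoodU` (rescaling around `(p0, ± YY)`)
-/

namespace P229.C

open Set Real Function
open scoped ContDiff

/-- the box of `GoodU`. -/
def S0 : Set (ℝ × ℝ) := Ioo (-(144 / 100) : ℝ) (144 / 100) ×ˢ Ioo (-(208 / 100) : ℝ) (208 / 100)

theorem isOpen_S0 : IsOpen S0 := isOpen_Ioo.prod isOpen_Ioo

/-- rescaled function. -/
noncomputable def cmp (s p0 τ : ℝ) (w : ℝ → ℝ → ℝ) : ℝ → ℝ → ℝ :=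
  fun x y => w (p0 + s * x) (τ * (YY + y))

/-- the small box. -/
abbrev BX : Set (ℝ × ℝ) := OBox 1 (1 / 60)

theorem isOpen_BX : IsOpen BX := isOpen_OBox _ _

theorem box_bounds {s p0 τ x y : ℝ} (hs0 : 0 < s) (hs : s ≤ 1 / 100) (hp0 : |p0| ≤ 143 / 100)
    (hτ : τ = 1 ∨ τ = -1) (hz : (x, y) ∈ BX) :
    |p0 + s * x| < 144 / 100 ∧ 61 / 30 < |τ * (YY + y)| ∧ |τ * (YY + y)| < 62 / 30 := by
  obtain ⟨hx, hy⟩ := mem_OBox.1 hz
  have hy' := abs_lt.1 hy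
  have h1 : |s * x| < 1 / 100 := by
    rw [abs_mul, abs_of_pos hs0]
    calc s * |x| < s * 1 := by exact mul_lt_mul_of_pos_left hx hs0
      _ ≤ 1 / 100 := by linarith
  have h2 : |τ * (YY + y)| = YY + y := by
    rw [abs_mul]
    have : |τ| = 1 := by rcases hτ with rfl | rfl <;> simp
    rw [this, one_mul, abs_of_pos]
    unfold YY; linarith [hy'.1]
  refine ⟨?_, ?_, ?_⟩
  · calc |p0 + s * x| ≤ |p0| + |s * x| := abs_add_le _ _
      _ < 144 / 100 := by linarith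
  · rw [h2]; unfold YY; linarith [hy'.1]
  · rw [h2]; unfold YY; linarith [hy'.2]

theorem box_mem {s p0 τ x y : ℝ} (hs0 : 0 < s) (hs : s ≤ 1 / 100) (hp0 : |p0| ≤ 143 / 100)
    (hτ : τ = 1 ∨ τ = -1) (hz : (x, y) ∈ BX) : (p0 + s * x, τ * (YY + y)) ∈ S0 := by
  obtain ⟨h1, h2, h3⟩ := box_bounds hs0 hs hp0 hτ hz
  have h4 := abs_lt.1 h1
  have h5 := abs_lt.1 (h3.trans (show (62 / 30 : ℝ) < 208 / 100 by norm_num))
  exact ⟨h4, h5⟩

theorem cmp_contDiffOn {s p0 τ : ℝ} (hs0 : 0 < s) (hs : s ≤ 1 / 100) (hp0 : |p0| ≤ 143 / 100)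
    (hτ : τ = 1 ∨ τ = -1) {w : ℝ → ℝ → ℝ} (hw : ContDiffOn ℝ ∞ (uncurry w) S0) :
    ContDiffOn ℝ ∞ (uncurry (cmp s p0 τ w)) BX := by
  have h1 : ContDiffOn ℝ ∞ (fun z : ℝ × ℝ => (p0 + s * z.1, τ * (YY + z.2))) BX := by
    fun_prop
  exact hw.comp h1 (fun z hz => box_mem (x := z.1) (y := z.2) hs0 hs hp0 hτ hz)

theorem dx_cmp {s p0 τ : ℝ} (hs0 : 0 < s) (hs : s ≤ 1 / 100) (hp0 : |p0| ≤ 143 / 100)
    (hτ : τ = 1 ∨ τ = -1) {w : ℝ → ℝ → ℝ} (hw : ContDiffOn ℝ ∞ (uncurry w) S0) {x y : ℝ}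
    (hz : (x, y) ∈ BX) : dx (cmp s p0 τ w) x y = s * cmp s p0 τ (dx w) x y := by
  have h1 := hasDerivAt_dx isOpen_S0 hw (box_mem hs0 hs hp0 hτ hz)
  have h2 : HasDerivAt (fun t : ℝ => p0 + s * t) s x := by
    simpa using ((hasDerivAt_id x).const_mul s).const_add p0
  have h3 := HasDerivAt.comp (h₂ := fun t => w t (τ * (YY + y))) x h1 h2
  have h4 : dx (cmp s p0 τ w) x y = dx w (p0 + s * x) (τ * (YY + y)) * s := h3.deriv
  rw [h4]; unfold cmp; ring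

theorem dy_cmp {s p0 τ : ℝ} (hs0 : 0 < s) (hs : s ≤ 1 / 100) (hp0 : |p0| ≤ 143 / 100)
    (hτ : τ = 1 ∨ τ = -1) {w : ℝ → ℝ → ℝ} (hw : ContDiffOn ℝ ∞ (uncurry w) S0) {x y : ℝ}
    (hz : (x, y) ∈ BX) : dy (cmp s p0 τ w) x y = τ * cmp s p0 τ (dy w) x y := by
  have h1 := hasDerivAt_dy isOpen_S0 hw (box_mem hs0 hs hp0 hτ hz)
  have h2 : HasDerivAt (fun t : ℝ => τ * (YY + t)) τ y := by
    simpa using ((hasDerivAt_id y).const_add YY).const_mul τ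
  have h3 := HasDerivAt.comp (h₂ := fun t => w (p0 + s * x) t) y h1 h2
  have h4 : dy (cmp s p0 τ w) x y = dy w (p0 + s * x) (τ * (YY + y)) * τ := h3.deriv
  rw [h4]; unfold cmp; ring

/-- variation of a function on the box. -/
theorem diff_le {g : ℝ → ℝ → ℝ} (hg : ContDiffOn ℝ ∞ (uncurry g) BX) {M1 M2 : ℝ}
    (h1 : ∀ x y, (x, y) ∈ BX → |dx g x y| ≤ M1) (h2 : ∀ x y, (x, y) ∈ BX → |dy g x y| ≤ M2)
    {x y : ℝ} (hz : (x, y) ∈ BX) : |g x y - g 0 0| ≤ M1 + M2 := by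
  obtain ⟨hx, hy⟩ := mem_OBox.1 hz
  have a1 : |g x y - g 0 y| ≤ M1 := by
    have hd : ∀ t ∈ Ioo (-1 : ℝ) 1, HasDerivWithinAt (fun t => g t y) (dx g t y) (Ioo (-1 : ℝ) 1) t :=
      fun t ht => (hasDerivAt_dx isOpen_BX hg (mem_OBox.2 ⟨abs_lt.2 ht, hy⟩)).hasDerivWithinAt
    have hb : ∀ t ∈ Ioo (-1 : ℝ) 1, ‖dx g t y‖ ≤ M1 :=
      fun t ht => h1 t y (mem_OBox.2 ⟨abs_lt.2 ht, hy⟩)
    have := (convex_Ioo (-1 : ℝ) 1).norm_image_sub_le_of_norm_hasDerivWithin_le hd hb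
      (show (0 : ℝ) ∈ Ioo (-1 : ℝ) 1 by constructor <;> norm_num) (abs_lt.1 hx)
    have hM : 0 ≤ M1 := (abs_nonneg _).trans (h1 x y hz)
    calc |g x y - g 0 y| ≤ M1 * ‖x - 0‖ := this
      _ ≤ M1 * 1 := by
        apply mul_le_mul_of_nonneg_left _ hM
        rw [sub_zero, Real.norm_eq_abs]; exact hx.le
      _ = M1 := mul_one _
  have a2 : |g 0 y - g 0 0| ≤ M2 := by
    have hd : ∀ t ∈ Ioo (-(1 / 60) : ℝ) (1 / 60),
        HasDerivWithinAt (fun t => g 0 t) (dy g 0 t) (Ioo (-(1 / 60) : ℝ) (1 / 60)) t :=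
      fun t ht => (hasDerivAt_dy isOpen_BX hg
        (mem_OBox.2 ⟨by simp, abs_lt.2 ht⟩)).hasDerivWithinAt
    have hb : ∀ t ∈ Ioo (-(1 / 60) : ℝ) (1 / 60), ‖dy g 0 t‖ ≤ M2 :=
      fun t ht => h2 0 t (mem_OBox.2 ⟨by simp, abs_lt.2 ht⟩)
    have := (convex_Ioo (-(1 / 60) : ℝ) (1 / 60)).norm_image_sub_le_of_norm_hasDerivWithin_le hd hb
      (show (0 : ℝ) ∈ Ioo (-(1 / 60) : ℝ) (1 / 60) by constructor <;> norm_num) (abs_lt.1 hy)
    have hM : 0 ≤ M2 := (abs_nonneg _).trans (h2 x y hz)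
    calc |g 0 y - g 0 0| ≤ M2 * ‖y - 0‖ := this
      _ ≤ M2 * 1 := by
        apply mul_le_mul_of_nonneg_left _ hM
        rw [sub_zero, Real.norm_eq_abs]; linarith
      _ = M2 := mul_one _
  calc |g x y - g 0 0| = |(g x y - g 0 y) + (g 0 y - g 0 0)| := by ring_nf
    _ ≤ |g x y - g 0 y| + |g 0 y - g 0 0| := abs_add_le _ _
    _ ≤ M1 + M2 := add_le_add a1 a2

/-- index type of the families. -/
structure Idx (C1 : ℝ) (k b : ℕ) where
  r : ℝ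
  mu : ℝ
  u : ℝ → ℝ → ℝ
  p0 : ℝ
  τ : ℝ
  hC : 1 ≤ C1
  hk : 1 ≤ k
  hr : 0 < r
  hr0 : r * C1 ^ 2 < 1 / 100
  hmu1 : 1 / C1 ≤ mu
  hmu2 : mu ≤ C1
  good : GoodU ⟨r, k, b⟩ mu C1 u
  hp0 : |p0| ≤ 143 / 100
  hτ : τ = 1 ∨ τ = -1

namespace Idx

variable {C1 : ℝ} {k b : ℕ} (i : Idx C1 k b)

/-- slow scale. -/
noncomputable def s : ℝ := i.r ^ (10 * k)

theorem hr1 : i.r < 1 / 100 := by
  have h1 := i.hr0
  have h2 : (1 : ℝ) ≤ C1 ^ 2 := one_le_pow₀ i.hC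
  have h3 := i.hr
  nlinarith

theorem s_pos : 0 < i.s := pow_pos i.hr _

theorem s_le_r : i.s ≤ i.r := by
  unfold s
  have h1 := i.hr1
  have h2 := i.hr
  calc i.r ^ (10 * k) ≤ i.r ^ 1 :=
        pow_le_pow_of_le_one h2.le (by linarith) (by have := i.hk; omega)
    _ = i.r := pow_one _

theorem s_le : i.s ≤ 1 / 100 := i.s_le_r.trans i.hr1.le

theorem eps_eq : (⟨i.r, k, b⟩ : Par).eps = i.s ^ 2 := by
  unfold Par.eps s
  simp only
  rw [← pow_mul]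
  congr 1
  ring

theorem τ_sq : i.τ * i.τ = 1 := by
  rcases i.hτ with h | h <;> rw [h] <;> norm_num

theorem τ_abs : |i.τ| = 1 := by
  rcases i.hτ with h | h <;> rw [h] <;> norm_num

/-- rescaled derivative. -/
noncomputable def c (w : ℝ → ℝ → ℝ) : ℝ → ℝ → ℝ := cmp i.s i.p0 i.τ w

theorem su : ContDiffOn ℝ ∞ (uncurry i.u) S0 := i.good.smooth
theorem sX : ContDiffOn ℝ ∞ (uncurry (dx i.u)) S0 := contDiffOn_dx isOpen_S0 i.su
theorem sV : ContDiffOn ℝ ∞ (uncurry (dy i.u)) S0 := contDiffOn_dy isOpen_S0 i.su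
theorem sG : ContDiffOn ℝ ∞ (uncurry (dx (dx i.u))) S0 := contDiffOn_dx isOpen_S0 i.sX
theorem sH : ContDiffOn ℝ ∞ (uncurry (dy (dx i.u))) S0 := contDiffOn_dy isOpen_S0 i.sX
theorem sK : ContDiffOn ℝ ∞ (uncurry (dy (dy i.u))) S0 := contDiffOn_dy isOpen_S0 i.sV

theorem c_smooth {w : ℝ → ℝ → ℝ} (hw : ContDiffOn ℝ ∞ (uncurry w) S0) :
    ContDiffOn ℝ ∞ (uncurry (i.c w)) BX := cmp_contDiffOn i.s_pos i.s_le i.hp0 i.hτ hw

theorem c_dx {w : ℝ → ℝ → ℝ} (hw : ContDiffOn ℝ ∞ (uncurry w) S0) {x y : ℝ}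
    (hz : (x, y) ∈ BX) : dx (i.c w) x y = i.s * i.c (dx w) x y :=
  dx_cmp i.s_pos i.s_le i.hp0 i.hτ hw hz

theorem c_dy {w : ℝ → ℝ → ℝ} (hw : ContDiffOn ℝ ∞ (uncurry w) S0) {x y : ℝ}
    (hz : (x, y) ∈ BX) : dy (i.c w) x y = i.τ * i.c (dy w) x y :=
  dy_cmp i.s_pos i.s_le i.hp0 i.hτ hw hz

theorem c_congr {w w' : ℝ → ℝ → ℝ} (h : ∀ x y, (x, y) ∈ S0 → w x y = w' x y) {x y : ℝ}
    (hz : (x, y) ∈ BX) : i.c w x y = i.c w' x y :=
  h _ _ (box_mem i.s_pos i.s_le i.hp0 i.hτ hz)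

/-- transfer of bounds. -/
theorem c_bound {w : ℝ → ℝ → ℝ} {M : ℝ}
    (h : ∀ p y : ℝ, |p| < 144 / 100 → |y| < 208 / 100 → |w p y| ≤ M) {x y : ℝ}
    (hz : (x, y) ∈ BX) : |i.c w x y| ≤ M := by
  obtain ⟨h1, _, h3⟩ := box_bounds i.s_pos i.s_le i.hp0 i.hτ hz
  exact h _ _ h1 (h3.trans (by norm_num))

noncomputable def X : ℝ → ℝ → ℝ := i.c (dx i.u)
noncomputable def V : ℝ → ℝ → ℝ := fun x y => i.τ * i.c (dy i.u) x y
noncomputable def G : ℝ → ℝ → ℝ := i.c (dx (dx i.u))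
noncomputable def A3 : ℝ := i.τ * i.c (dy (dx i.u)) 0 0
noncomputable def H : ℝ → ℝ → ℝ := fun x y => i.s⁻¹ * (i.τ * i.c (dy (dx i.u)) x y - i.A3)
noncomputable def K : ℝ → ℝ → ℝ := fun x y => (i.s ^ 2)⁻¹ * i.c (dy (dy i.u)) x y
noncomputable def P : ℝ → ℝ → ℝ := fun x _ => i.p0 + i.s * x
noncomputable def BB : ℝ → ℝ → ℝ := fun x y => 1 - i.r ^ 2 * i.s ^ 2 / 2 * (i.X x y) ^ 2
noncomputable def Bi : ℝ → ℝ → ℝ := fun x y => (i.BB x y)⁻¹

theorem X_smooth : ContDiffOn ℝ ∞ (uncurry i.X) BX := i.c_smooth i.sX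
theorem V_smooth : ContDiffOn ℝ ∞ (uncurry i.V) BX := contDiffOn_const.mul (i.c_smooth i.sV)
theorem G_smooth : ContDiffOn ℝ ∞ (uncurry i.G) BX := i.c_smooth i.sG
theorem H_smooth : ContDiffOn ℝ ∞ (uncurry i.H) BX :=
  contDiffOn_const.mul ((contDiffOn_const.mul (i.c_smooth i.sH)).sub contDiffOn_const)
theorem K_smooth : ContDiffOn ℝ ∞ (uncurry i.K) BX := contDiffOn_const.mul (i.c_smooth i.sK)
theorem P_smooth : ContDiffOn ℝ ∞ (uncurry i.P) BX := by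
  unfold P
  have : (uncurry fun (x _ : ℝ) => i.p0 + i.s * x) = fun z : ℝ × ℝ => i.p0 + i.s * z.1 := by
    funext z; rfl
  rw [this]
  fun_prop
theorem BB_smooth : ContDiffOn ℝ ∞ (uncurry i.BB) BX :=
  contDiffOn_const.sub (contDiffOn_const.mul (i.X_smooth.pow 2))

/-- the plateau facts. -/
theorem plateau {x y : ℝ} (hz : (x, y) ∈ BX) :
    1 / 2 ≤ i.BB x y ∧
    i.c (dy (dy i.u)) x y = -(i.s ^ 2 *
      (ca i.r i.s i.mu (i.P x y) (i.X x y) (i.c (dy i.u) x y) (i.Bi x y) * i.G x y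
        + 2 * (i.r ^ 2 * i.X x y * i.c (dy i.u) x y * i.Bi x y) * i.c (dy (dx i.u)) x y
        + i.r ^ 2 * i.BB x y * i.P x y * i.X x y)) := by
  obtain ⟨h1, h2, h3⟩ := box_bounds i.s_pos i.s_le i.hp0 i.hτ hz
  exact pde_plateau i.hr i.hr1 i.good h1 h2 h3

theorem BB_ne {x y : ℝ} (hz : (x, y) ∈ BX) : i.BB x y ≠ 0 := by
  have := (i.plateau hz).1
  intro h; rw [h] at this; norm_num at this

theorem Bi_smooth : ContDiffOn ℝ ∞ (uncurry i.Bi) BX :=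
  i.BB_smooth.inv (fun z hz => i.BB_ne (x := z.1) (y := z.2) hz)

section deriv

variable {x y : ℝ} (hz : (x, y) ∈ BX)
include hz

omit hz in
theorem cH_eq : i.τ * i.c (dy (dx i.u)) x y = i.A3 + i.s * i.H x y := by
  unfold H
  have := i.s_pos.ne'
  field_simp
  ring

theorem dx_X : dx i.X x y = i.s * i.G x y := i.c_dx i.sX hz

theorem dy_X : dy i.X x y = i.A3 + i.s * i.H x y := by
  rw [← i.cH_eq]
  exact i.c_dy i.sX hz

theorem dx_V : dx i.V x y = i.s * (i.A3 + i.s * i.H x y) := by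
  rw [← i.cH_eq]
  unfold V
  rw [dx_const_mul, i.c_dx i.sV hz, i.c_congr (fun x y h => dx_dy isOpen_S0 i.su h) hz]
  ring

theorem dy_V : dy i.V x y = i.s ^ 2 * i.K x y := by
  unfold V K
  rw [dy_const_mul, i.c_dy i.sV hz, ← mul_assoc, i.τ_sq]
  have := i.s_pos.ne'
  field_simp

omit hz in
theorem dx_P : dx i.P x y = i.s := by
  unfold P dx
  have h2 : HasDerivAt (fun t : ℝ => i.p0 + i.s * t) i.s x := by
    simpa using ((hasDerivAt_id x).const_mul i.s).const_add i.p0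
  exact h2.deriv

omit hz in
theorem dy_P : dy i.P x y = 0 := by
  unfold P dy
  exact deriv_const _ _

theorem dy_G : dy i.G x y = i.τ * i.c (dy (dx (dx i.u))) x y := i.c_dy i.sG hz

theorem dx_H : dx i.H x y = i.τ * i.c (dy (dx (dx i.u))) x y := by
  have h1 : HasDerivAt (fun t => i.c (dy (dx i.u)) t y) (i.s * i.c (dx (dy (dx i.u))) x y) x := by
    rw [← i.c_dx i.sH hz]
    exact hasDerivAt_dx isOpen_BX (i.c_smooth i.sH) hz
  have h2 := ((h1.const_mul i.τ).sub_const i.A3).const_mul i.s⁻¹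
  have h3 : dx i.H x y = i.s⁻¹ * (i.τ * (i.s * i.c (dx (dy (dx i.u))) x y)) := h2.deriv
  rw [h3, i.c_congr (fun x y h => dx_dy isOpen_S0 i.sX h) hz]
  have := i.s_pos.ne'
  field_simp

theorem dy_H : dy i.H x y = i.s⁻¹ * i.c (dy (dy (dx i.u))) x y := by
  have h1 : HasDerivAt (fun t => i.c (dy (dx i.u)) x t) (i.τ * i.c (dy (dy (dx i.u))) x y) y := by
    rw [← i.c_dy i.sH hz]
    exact hasDerivAt_dy isOpen_BX (i.c_smooth i.sH) hz
  have h2 := ((h1.const_mul i.τ).sub_const i.A3).const_mul i.s⁻¹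
  have h3 : dy i.H x y = i.s⁻¹ * (i.τ * (i.τ * i.c (dy (dy (dx i.u))) x y)) := h2.deriv
  rw [h3, ← mul_assoc i.τ, i.τ_sq, one_mul]

theorem dx_K : dx i.K x y = i.s⁻¹ * i.c (dy (dy (dx i.u))) x y := by
  unfold K
  rw [dx_const_mul, i.c_dx i.sK hz]
  have e : ∀ x y, (x, y) ∈ S0 → dx (dy (dy i.u)) x y = dy (dy (dx i.u)) x y := by
    intro x y h
    rw [dx_dy isOpen_S0 i.sV h]
    exact dy_congr isOpen_S0 (fun x y h => dx_dy isOpen_S0 i.su h) h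
  rw [i.c_congr e hz]
  have := i.s_pos.ne'
  field_simp

theorem dx_Bi : dx i.Bi x y
    = i.r ^ 2 * i.s ^ 2 * i.Bi x y ^ 2 * i.X x y * (i.s * i.G x y) := by
  have h1 := hasDerivAt_dx isOpen_BX i.X_smooth hz
  rw [i.dx_X hz] at h1
  have h2 := (((h1.pow 2).const_mul (i.r ^ 2 * i.s ^ 2 / 2)).const_sub 1).inv (i.BB_ne hz)
  have h3 : dx i.Bi x y = _ := h2.deriv
  rw [h3]
  unfold Bi
  have h4 : i.BB x y = 1 - i.r ^ 2 * i.s ^ 2 / 2 * (i.X x y) ^ 2 := rfl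
  have h5 := i.BB_ne hz
  have e : (((fun t => i.X t y) ^ 2) x) = i.X x y ^ 2 := rfl
  rw [e, ← h4]
  field_simp
  norm_num
  ring

theorem dy_Bi : dy i.Bi x y
    = i.r ^ 2 * i.s ^ 2 * i.Bi x y ^ 2 * i.X x y * (i.A3 + i.s * i.H x y) := by
  have h1 := hasDerivAt_dy isOpen_BX i.X_smooth hz
  rw [i.dy_X hz] at h1
  have h2 := (((h1.pow 2).const_mul (i.r ^ 2 * i.s ^ 2 / 2)).const_sub 1).inv (i.BB_ne hz)
  have h3 : dy i.Bi x y = _ := h2.deriv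
  rw [h3]
  unfold Bi
  have h4 : i.BB x y = 1 - i.r ^ 2 * i.s ^ 2 / 2 * (i.X x y) ^ 2 := rfl
  have h5 := i.BB_ne hz
  have e : (((fun t => i.X x t) ^ 2) y) = i.X x y ^ 2 := rfl
  rw [e, ← h4]
  field_simp
  norm_num
  ring

theorem K_eq : i.K x y = -((ca i.r i.s i.mu (i.P x y) (i.X x y) (i.V x y) (i.Bi x y)) * i.G x y
    + 2 * (i.r ^ 2 * i.s * i.X x y * i.V x y * i.Bi x y) * i.H x y
    + (2 * i.r ^ 2 * i.A3 * i.X x y * i.V x y * i.Bi x y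
        + i.r ^ 2 * i.BB x y * i.P x y * i.X x y)) := by
  have h1 := (i.plateau hz).2
  have h2 : i.τ * i.c (dy (dx i.u)) x y = i.A3 + i.s * i.H x y := i.cH_eq
  have h3 : i.c (dy i.u) x y = i.τ * i.V x y := by
    unfold V; rw [← mul_assoc, i.τ_sq, one_mul]
  have h4 : i.c (dy (dx i.u)) x y = i.τ * (i.A3 + i.s * i.H x y) := by
    rw [← h2, ← mul_assoc, i.τ_sq, one_mul]
  have h5 : ca i.r i.s i.mu (i.P x y) (i.X x y) (i.τ * i.V x y) (i.Bi x y)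
      = ca i.r i.s i.mu (i.P x y) (i.X x y) (i.V x y) (i.Bi x y) := by
    unfold ca
    have : (i.τ * i.V x y) ^ 2 = (i.V x y) ^ 2 := by
      have := i.τ_sq
      calc (i.τ * i.V x y) ^ 2 = (i.τ * i.τ) * (i.V x y) ^ 2 := by ring
        _ = _ := by rw [this, one_mul]
    rw [this]
  have h6 := i.τ_sq
  unfold K
  rw [h1, h3, h4, h5]
  have h7 : i.s ^ 2 ≠ 0 := pow_ne_zero _ i.s_pos.ne'
  have h8 : 2 * (i.r ^ 2 * i.X x y * (i.τ * i.V x y) * i.Bi x y)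
      * (i.τ * (i.A3 + i.s * i.H x y))
      = (i.τ * i.τ) * (2 * (i.r ^ 2 * i.X x y * i.V x y * i.Bi x y)
        * (i.A3 + i.s * i.H x y)) := by ring
  rw [h8, h6, one_mul, ← neg_mul_eq_mul_neg, ← mul_assoc, inv_mul_cancel₀ h7]
  ring

theorem X_bound : |i.X x y| ≤ 2 := by
  have h : ∀ p y : ℝ, |p| < 144 / 100 → |y| < 208 / 100 → |dx i.u p y| ≤ 2 := by
    intro p y hp hy
    have h1 := i.good.up p y hp hy
    calc |dx i.u p y| = |(dx i.u p y - p) + p| := by ring_nf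
      _ ≤ |dx i.u p y - p| + |p| := abs_add_le _ _
      _ ≤ 2 := by linarith
  exact i.c_bound h hz

theorem V_bound : |i.V x y| ≤ C1 := by
  unfold V
  rw [abs_mul, i.τ_abs, one_mul]
  exact i.c_bound i.good.uy hz

theorem G_bound : |i.G x y| ≤ 2 := by
  have h : ∀ p y : ℝ, |p| < 144 / 100 → |y| < 208 / 100 → |dx (dx i.u) p y| ≤ 2 := by
    intro p y hp hy
    have h1 := i.good.upp p y hp hy
    calc |dx (dx i.u) p y| = |(dx (dx i.u) p y - 1) + 1| := by ring_nf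
      _ ≤ |dx (dx i.u) p y - 1| + |1| := abs_add_le _ _
      _ ≤ 2 := by rw [abs_one]; linarith
  exact i.c_bound h hz

theorem Bi_pos : 0 < i.Bi x y := by
  have := (i.plateau hz).1
  exact inv_pos.2 (by linarith)

theorem Bi_le : i.Bi x y ≤ 2 := by
  have h1 := (i.plateau hz).1
  have h2 : (i.BB x y)⁻¹ ≤ (1 / 2 : ℝ)⁻¹ := inv_anti₀ (by norm_num) h1
  calc i.Bi x y = (i.BB x y)⁻¹ := rfl
    _ ≤ (1 / 2 : ℝ)⁻¹ := h2
    _ = 2 := by norm_num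

theorem Bi_bound : |i.Bi x y| ≤ 2 := by
  rw [abs_of_pos (i.Bi_pos hz)]; exact i.Bi_le hz

theorem P_bound' : |i.P x y| < 144 / 100 := (box_bounds i.s_pos i.s_le i.hp0 i.hτ hz).1

theorem P_bound : |i.P x y| ≤ 2 := (i.P_bound' hz).le.trans (by norm_num)

omit hz in
theorem zero_mem : ((0 : ℝ), (0 : ℝ)) ∈ BX := mem_OBox.2 ⟨by simp, by simp⟩

omit hz in
theorem A3_bound : |i.A3| ≤ 1 := by
  unfold A3
  rw [abs_mul, i.τ_abs, one_mul]
  exact (i.c_bound i.good.upy zero_mem).trans (by norm_num)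

theorem H_bound : |i.H x y| ≤ 2 * C1 := by
  have hC0 : 0 ≤ C1 := by linarith [i.hC]
  have h1 : ∀ x y, (x, y) ∈ BX → |dx (i.c (dy (dx i.u))) x y| ≤ i.s * C1 := by
    intro x y hz
    rw [i.c_dx i.sH hz, abs_mul, abs_of_pos i.s_pos]
    apply mul_le_mul_of_nonneg_left _ i.s_pos.le
    rw [i.c_congr (fun x y h => dx_dy isOpen_S0 i.sX h) hz]
    refine (i.c_bound i.good.uppy hz).trans ?_
    have := i.hr1
    exact mul_le_of_le_one_right hC0 (by simp only; linarith)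
  have h2 : ∀ x y, (x, y) ∈ BX → |dy (i.c (dy (dx i.u))) x y| ≤ i.s * C1 := by
    intro x y hz
    rw [i.c_dy i.sH hz, abs_mul, i.τ_abs, one_mul]
    refine (i.c_bound i.good.upyy hz).trans ?_
    rw [i.eps_eq]
    have h3 := i.s_le
    have h4 := i.s_pos
    nlinarith [mul_nonneg h4.le hC0]
  have h3 := diff_le (i.c_smooth i.sH) h1 h2 hz
  unfold H A3
  rw [← mul_sub, abs_mul, abs_mul, i.τ_abs, one_mul, abs_inv, abs_of_pos i.s_pos]
  have h4 := i.s_pos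
  rw [inv_mul_le_iff₀ h4]
  linarith

theorem dxG_bound : |dx i.G x y| ≤ C1 := by
  have hC0 : 0 ≤ C1 := by linarith [i.hC]
  have h0 : dx i.G x y = i.s * i.c (dx (dx (dx i.u))) x y := i.c_dx i.sG hz
  rw [h0, abs_mul, abs_of_pos i.s_pos]
  have h1 : |i.c (dx (dx (dx i.u))) x y| ≤ C1 := by
    refine (i.c_bound i.good.uppp hz).trans ?_
    have := i.hr1
    exact mul_le_of_le_one_right hC0 (by simp only; linarith)
  have h3 := i.s_le
  calc i.s * |i.c (dx (dx (dx i.u))) x y| ≤ 1 * C1 :=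
        mul_le_mul (by linarith) h1 (abs_nonneg _) (by norm_num)
    _ = C1 := one_mul _

theorem dxH_bound : |dx i.H x y| ≤ C1 := by
  have hC0 : 0 ≤ C1 := by linarith [i.hC]
  rw [i.dx_H hz, abs_mul, i.τ_abs, one_mul]
  refine (i.c_bound i.good.uppy hz).trans ?_
  have := i.hr1
  exact mul_le_of_le_one_right hC0 (by simp only; linarith)

/-- ellipticity. -/
theorem ell : 1 / (8 * C1) ≤ ca i.r i.s i.mu (i.P x y) (i.X x y) (i.V x y) (i.Bi x y)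
    - (i.r ^ 2 * i.s * i.X x y * i.V x y * i.Bi x y) ^ 2 := by
  have hC1 := i.hC
  have hC0 : 0 < C1 := by linarith
  have hBB := (i.plateau hz).1
  have hX := i.X_bound hz
  have hV := i.V_bound hz
  have hP := i.P_bound hz
  have hB0 := i.Bi_pos hz
  have hB1 := i.Bi_le hz
  have hr := i.hr
  have hr0 := i.hr0
  have hr1 := i.hr1
  have hs0 := i.s_pos
  have hs1 := i.s_le
  have hmu := i.hmu1
  have e1 : ca i.r i.s i.mu (i.P x y) (i.X x y) (i.V x y) (i.Bi x y)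
      = i.r ^ 4 * i.s ^ 2 * i.X x y ^ 2 * i.V x y ^ 2 * i.Bi x y ^ 2
        + i.BB x y * (i.mu - i.r ^ 2 * i.P x y ^ 2) - i.r ^ 2 * i.V x y ^ 2 * i.Bi x y := rfl
  rw [e1]
  generalize i.BB x y = B at *
  generalize i.X x y = X at *
  generalize i.V x y = V at *
  generalize i.P x y = P at *
  generalize i.Bi x y = Bi at *
  generalize i.r = r at *
  generalize i.s = s at *
  generalize i.mu = mu at *
  have t0 : 0 ≤ r ^ 4 * s ^ 2 * X ^ 2 * V ^ 2 * Bi ^ 2 := by positivity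
  have hX2 : X ^ 2 ≤ 4 := by
    have := sq_le_sq' (by linarith [(abs_le.1 hX).1]) (abs_le.1 hX).2
    linarith
  have hP2 : P ^ 2 ≤ 4 := by
    have := sq_le_sq' (by linarith [(abs_le.1 hP).1]) (abs_le.1 hP).2
    linarith
  have hV2 : V ^ 2 ≤ C1 ^ 2 := sq_le_sq' (abs_le.1 hV).1 (abs_le.1 hV).2
  -- q = 1 / C1
  obtain ⟨q, hq⟩ : ∃ q : ℝ, q = 1 / C1 := ⟨_, rfl⟩
  have hq0 : 0 < q := by rw [hq]; positivity
  have hq1 : q ≤ 1 := by rw [hq, div_le_one hC0]; exact hC1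
  have hqC : q * C1 = 1 := by rw [hq]; field_simp
  have hrq : r * C1 ^ 2 < 1 / 100 := hr0
  -- r ≤ q^2 / 100
  have hr2 : r ≤ q ^ 2 / 100 := by
    have h1 : q ^ 2 * C1 ^ 2 = 1 := by rw [← mul_pow, hqC, one_pow]
    have h2 : 0 < C1 ^ 2 := by positivity
    by_contra hcon
    push Not at hcon
    have h3 : q ^ 2 / 100 * C1 ^ 2 < r * C1 ^ 2 := mul_lt_mul_of_pos_right hcon h2
    have h4 : q ^ 2 / 100 * C1 ^ 2 = 1 / 100 := by
      rw [div_mul_eq_mul_div, h1]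
    linarith
  have hrCq : r * C1 ≤ q / 100 := by
    have h1 : q ^ 2 * C1 = q := by rw [pow_two, mul_assoc, hqC, mul_one]
    have h2 : r * C1 ≤ q ^ 2 / 100 * C1 := mul_le_mul_of_nonneg_right hr2 hC0.le
    have h3 : q ^ 2 / 100 * C1 = q / 100 := by rw [div_mul_eq_mul_div, h1]
    linarith
  have hrC0 : 0 ≤ r * C1 := by positivity
  have hrC2 : (r * C1) ^ 2 ≤ q / 100 * (1 / 100) := by
    rw [pow_two]
    exact mul_le_mul hrCq (by linarith) hrC0 (by positivity)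
  have hr3 : r ^ 2 ≤ q / 10000 := by
    have h1 : r ^ 2 ≤ (r * C1) ^ 2 := by
      apply pow_le_pow_left₀ hr.le
      exact le_mul_of_one_le_right hr.le hC1
    linarith
  have t1 : r ^ 2 * V ^ 2 * Bi ≤ q / 5000 := by
    have h1 : r ^ 2 * V ^ 2 ≤ (r * C1) ^ 2 := by
      rw [mul_pow]; exact mul_le_mul_of_nonneg_left hV2 (by positivity)
    calc r ^ 2 * V ^ 2 * Bi ≤ (r * C1) ^ 2 * 2 :=
          mul_le_mul h1 hB1 hB0.le (by positivity)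
      _ ≤ q / 5000 := by linarith
  have t2 : (r ^ 2 * s * X * V * Bi) ^ 2 ≤ q / 5000 := by
    have h1 : (r ^ 2 * s * X * V * Bi) ^ 2 = (r ^ 2 * V ^ 2 * Bi) * (r ^ 2 * s ^ 2 * X ^ 2 * Bi) := by
      ring
    have h2 : r ^ 2 * s ^ 2 * X ^ 2 * Bi ≤ 1 := by
      have a1 : r ^ 2 ≤ 1 / 100 := by nlinarith
      have a2 : s ^ 2 ≤ 1 := by nlinarith
      calc r ^ 2 * s ^ 2 * X ^ 2 * Bi ≤ 1 / 100 * 1 * 4 * 2 := by
            apply mul_le_mul _ hB1 hB0.le (by norm_num)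
            apply mul_le_mul _ hX2 (by positivity) (by norm_num)
            exact mul_le_mul a1 a2 (by positivity) (by norm_num)
        _ ≤ 1 := by norm_num
    rw [h1]
    calc (r ^ 2 * V ^ 2 * Bi) * (r ^ 2 * s ^ 2 * X ^ 2 * Bi) ≤ q / 5000 * 1 :=
          mul_le_mul t1 h2 (by positivity) (by positivity)
      _ = q / 5000 := mul_one _
  have t3 : q / 2 ≤ mu - r ^ 2 * P ^ 2 := by
    have h1 : r ^ 2 * P ^ 2 ≤ q / 10000 * 4 := mul_le_mul hr3 hP2 (by positivity) (by positivity)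
    rw [← hq] at hmu
    linarith
  have t4 : q / 4 ≤ B * (mu - r ^ 2 * P ^ 2) := by
    calc q / 4 = 1 / 2 * (q / 2) := by ring
      _ ≤ B * (mu - r ^ 2 * P ^ 2) := mul_le_mul hBB t3 (by positivity) (by linarith)
  have t5 : 1 / (8 * C1) = q / 8 := by rw [hq]; field_simp
  rw [t5]
  linarith

end deriv

end Idx

end P229.C
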