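import Vale.Agent.P229.C.Ring

/-!
# P229 block C: evaluation of the iterated derivation `D1`   (helper46)
-/

namespace P229.C

open Set Real Function
open scoped ContDiff Topology

theorem eval_iter {ι : Type*} {A B : ℝ} (f : SFam ι A B) (i : ι) (n : ℕ) {x y : ℝ}
    (h : (x, y) ∈ OBox A B) :
    ext0 (((⇑(D1 ι A B))^[n] f).1 i) x y = iteratedDeriv n (fun t => ext0 (f.1 i) t y) x := by
  induction n generalizing x with
  | zero => simp
  | succ n ih =>
    rw [← iter_succ, ext0_D1 _ i h, iteratedDeriv_succ]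
    unfold dx
    apply Filter.EventuallyEq.deriv_eq
    filter_upwards [eventually_dx (isOpen_OBox A B) h] with t ht using ih ht

theorem iteratedDeriv_affine (g : ℝ → ℝ) (p0 s : ℝ) (n : ℕ) :
    iteratedDeriv n (fun t => g (p0 + s * t)) = fun t => s ^ n * iteratedDeriv n g (p0 + s * t) := by
  induction n with
  | zero => simp
  | succ n ih =>
    funext t
    rw [iteratedDeriv_succ, ih]
    have h1 : deriv (fun t => s ^ n * iteratedDeriv n g (p0 + s * t)) t
        = s ^ n * deriv (fun t => iteratedDeriv n g (p0 + s * t)) t := deriv_const_mul_field _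
    have h2 : deriv (fun t => iteratedDeriv n g (p0 + s * t)) t
        = s * deriv (fun t => iteratedDeriv n g (p0 + t)) (s * t) :=
      deriv_comp_mul_left s (fun t => iteratedDeriv n g (p0 + t)) t
    have h3 : deriv (fun t => iteratedDeriv n g (p0 + t)) (s * t)
        = deriv (iteratedDeriv n g) (p0 + s * t) :=
      deriv_comp_const_add (f := iteratedDeriv n g) p0 (s * t)
    rw [h1, h2, h3, iteratedDeriv_succ]
    ring

/-- `D1^n` of a family which is `g i (p0 i + s i * x) y` near `y = 0`, at the centre. -/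
theorem eval_center {ι : Type*} {A B : ℝ} (hA : 0 < A) (hB : 0 < B) (f : SFam ι A B) (i : ι)
    (n : ℕ) (g : ℝ → ℝ) (p0 s : ℝ)
    (hf : ∀ x : ℝ, |x| < A → ext0 (f.1 i) x 0 = g (p0 + s * x)) :
    ∃ h0 : ((0 : ℝ), (0 : ℝ)) ∈ OBox A B,
      (((⇑(D1 ι A B))^[n] f).1 i) ⟨(0, 0), h0⟩ = s ^ n * iteratedDeriv n g p0 := by
  have h0 : ((0 : ℝ), (0 : ℝ)) ∈ OBox A B := mem_OBox.2 ⟨by simpa using hA, by simpa using hB⟩
  refine ⟨h0, ?_⟩
  rw [← ext0_of_mem (((⇑(D1 ι A B))^[n] f).1 i) h0, eval_iter f i n h0]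
  have h1 : (fun t => ext0 (f.1 i) t 0) =ᶠ[𝓝 0] fun t => g (p0 + s * t) := by
    filter_upwards [eventually_dx (isOpen_OBox A B) h0] with t ht
    exact hf t (mem_OBox.1 ht).1
  rw [h1.iteratedDeriv_eq n, iteratedDeriv_affine]
  simp

end P229.C
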