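import Vale.Agent.P229.C.Alg

/-!
# P229 block C: from relations between generators to the structure `Rel`   (helper46)
-/

namespace P229.C

variable {R A : Type*} [CommRing R] [CommRing A] [Algebra R A]

/-- the ring generated by constants and `p, X, V, Bi`. -/
def ZZ (Kc : Subring A) (p X V Bi : A) : Subring A :=
  Subring.closure ((Kc : Set A) ∪ {p, X, V, Bi})

theorem Kc_le_ZZ (Kc : Subring A) (p X V Bi : A) : Kc ≤ ZZ Kc p X V Bi :=
  fun _ hx => Subring.subset_closure (Or.inl hx)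

theorem p_mem_ZZ (Kc : Subring A) (p X V Bi : A) : p ∈ ZZ Kc p X V Bi :=
  Subring.subset_closure (Or.inr (by simp))

theorem X_mem_ZZ (Kc : Subring A) (p X V Bi : A) : X ∈ ZZ Kc p X V Bi :=
  Subring.subset_closure (Or.inr (by simp))

theorem V_mem_ZZ (Kc : Subring A) (p X V Bi : A) : V ∈ ZZ Kc p X V Bi :=
  Subring.subset_closure (Or.inr (by simp))

theorem Bi_mem_ZZ (Kc : Subring A) (p X V Bi : A) : Bi ∈ ZZ Kc p X V Bi :=
  Subring.subset_closure (Or.inr (by simp))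

/-- **Generator relations imply `Rel`.** `s, A3, c2` are constants, `Bi = 1 / (1 - c2 X ^ 2)`. -/
theorem rel_of_gens {D1 D2 : Derivation R A A} {Kc : Subring A}
    {p X V Bi G H K a b f s A3 c2 : A}
    (comm : ∀ x, D1 (D2 x) = D2 (D1 x))
    (hK1 : ∀ c ∈ Kc, D1 c = 0) (hK2 : ∀ c ∈ Kc, D2 c = 0)
    (hs : s ∈ Kc) (hA3 : A3 ∈ Kc) (hc2 : c2 ∈ Kc)
    (h1p : D1 p = s) (h2p : D2 p = 0)
    (h1X : D1 X = s * G) (h2X : D2 X = A3 + s * H)
    (h1V : D1 V = s * A3 + s ^ 2 * H) (h2V : D2 V = s ^ 2 * K)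
    (hBi : Bi * (1 - c2 * X ^ 2) = 1)
    (hGH : D2 G = D1 H) (hHK : D2 H = D1 K)
    (ha : a ∈ ZZ Kc p X V Bi) (hb : b ∈ ZZ Kc p X V Bi) (hf : f ∈ ZZ Kc p X V Bi)
    (hK : K = -(a * G + 2 * b * H + f)) :
    Rel D1 D2 (ZZ Kc p X V Bi) G H K a b f := by
  have hs' : s ∈ ZZ Kc p X V Bi := Kc_le_ZZ Kc p X V Bi hs
  have hA3' : A3 ∈ ZZ Kc p X V Bi := Kc_le_ZZ Kc p X V Bi hA3
  have hc2' : c2 ∈ ZZ Kc p X V Bi := Kc_le_ZZ Kc p X V Bi hc2
  have hX := X_mem_ZZ Kc p X V Bi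
  have hB := Bi_mem_ZZ Kc p X V Bi
  have h2 : (2 : A) ∈ ZZ Kc p X V Bi := by exact_mod_cast natCast_mem (ZZ Kc p X V Bi) 2
  -- derivative of Bi
  have hDBi : ∀ D : Derivation R A A, D c2 = 0 → D Bi = (2 * c2 * X * Bi ^ 2) * D X := by
    intro D hD
    have h1 : D (Bi * (1 - c2 * X ^ 2)) = 0 := by rw [hBi, Derivation.map_one_eq_zero]
    rw [Derivation.leibniz, map_sub, Derivation.map_one_eq_zero, Derivation.leibniz,
      Derivation.leibniz_pow, hD] at h1
    simp only [smul_eq_mul, nsmul_eq_mul] at h1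
    have h3 : D Bi = Bi * (1 - c2 * X ^ 2) * D Bi := by rw [hBi, one_mul]
    rw [h3]
    have h4 : (1 - c2 * X ^ 2) * D Bi = 2 * c2 * X * Bi * D X := by
      push_cast at h1
      linear_combination h1
    rw [mul_assoc, h4]
    ring
  refine ⟨comm, ?_, ?_, hGH, hHK, ha, hb, hf, hK⟩
  · apply affine_closure
    rintro x (hx | hx)
    · rw [hK1 x hx]
      exact Aff.of_mem _ _ (Subring.zero_mem _)
    · have hX1 : Aff (ZZ Kc p X V Bi) (ZZ Kc p X V Bi) G H (D1 X) :=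
        ⟨s, hs', 0, Subring.zero_mem _, 0, Subring.zero_mem _, by rw [h1X]; ring⟩
      simp only [Set.mem_insert_iff, Set.mem_singleton_iff] at hx
      rcases hx with rfl | rfl | rfl | rfl
      · rw [h1p]
        exact Aff.of_mem _ _ hs'
      · exact hX1
      · exact ⟨0, Subring.zero_mem _, s ^ 2, Subring.pow_mem _ hs' 2, s * A3,
          Subring.mul_mem _ hs' hA3', by rw [h1V]; ring⟩
      · rw [hDBi D1 (hK1 c2 hc2)]
        have hm : 2 * c2 * X * x ^ 2 ∈ ZZ Kc p X V x :=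
          Subring.mul_mem _ (Subring.mul_mem _ (Subring.mul_mem _ h2 hc2') hX)
            (Subring.pow_mem _ hB 2)
        exact Aff.mul _ hm hm hX1
  · apply affine_closure
    rintro x (hx | hx)
    · rw [hK2 x hx]
      exact Aff.of_mem _ _ (Subring.zero_mem _)
    · have hX2 : Aff (ZZ Kc p X V Bi) (ZZ Kc p X V Bi) G H (D2 X) :=
        ⟨0, Subring.zero_mem _, s, hs', A3, hA3', by rw [h2X]; ring⟩
      have hKa : Aff (ZZ Kc p X V Bi) (ZZ Kc p X V Bi) G H K :=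
        ⟨-a, Subring.neg_mem _ ha, -(2 * b), Subring.neg_mem _ (Subring.mul_mem _ h2 hb), -f,
          Subring.neg_mem _ hf, by rw [hK]; ring⟩
      simp only [Set.mem_insert_iff, Set.mem_singleton_iff] at hx
      rcases hx with rfl | rfl | rfl | rfl
      · rw [h2p]
        exact Aff.of_mem _ _ (Subring.zero_mem _)
      · exact hX2
      · rw [h2V]
        exact Aff.mul _ (Subring.pow_mem _ hs' 2) (Subring.pow_mem _ hs' 2) hKa
      · rw [hDBi D2 (hK2 c2 hc2)]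
        have hm : 2 * c2 * X * x ^ 2 ∈ ZZ Kc p X V x :=
          Subring.mul_mem _ (Subring.mul_mem _ (Subring.mul_mem _ h2 hc2') hX)
            (Subring.pow_mem _ hB 2)
        exact Aff.mul _ hm hm hX2

end P229.C
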