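import Vale.Agent.P229.C.Data
import Vale.Agent.P229.Interface

/-!
# P229 block C: the relations, the base case and `BlockC`
-/

namespace P229.C

open Set Real Function
open scoped ContDiff

section

variable {ι : Type*} {A B : ℝ}

theorem v_mul (f g : SFam ι A B) (i : ι) (z : OBox A B) :
    (f * g).1 i z = f.1 i z * g.1 i z := rfl
theorem v_add (f g : SFam ι A B) (i : ι) (z : OBox A B) :
    (f + g).1 i z = f.1 i z + g.1 i z := rfl
theorem v_neg (f : SFam ι A B) (i : ι) (z : OBox A B) : (-f).1 i z = -(f.1 i z) := rfl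
theorem v_sub (f g : SFam ι A B) (i : ι) (z : OBox A B) :
    (f - g).1 i z = f.1 i z - g.1 i z := rfl
theorem v_one (i : ι) (z : OBox A B) : (1 : SFam ι A B).1 i z = 1 := rfl
theorem v_zero (i : ι) (z : OBox A B) : (0 : SFam ι A B).1 i z = 0 := rfl
theorem v_two (i : ι) (z : OBox A B) : (2 : SFam ι A B).1 i z = 2 := rfl
theorem v_sq (f : SFam ι A B) (i : ι) (z : OBox A B) :
    (f ^ 2).1 i z = (f.1 i z) ^ 2 := by rw [pow_two, pow_two]; rfl
theorem v_mk (F : ι → ℝ → ℝ → ℝ) (hF : ∀ i, ContDiffOn ℝ ∞ (uncurry (F i)) (OBox A B)) (i : ι)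
    (z : OBox A B) : (mkF F hF).1 i z = F i z.1.1 z.1.2 := rfl

theorem D1_mk (F : ι → ℝ → ℝ → ℝ) (hF : ∀ i, ContDiffOn ℝ ∞ (uncurry (F i)) (OBox A B)) (i : ι)
    (z : OBox A B) : (D1 ι A B (mkF F hF)).1 i z = dx (F i) z.1.1 z.1.2 :=
  dx_congr (isOpen_OBox A B) (fun _ _ h => ext0_congr (F i) h) z.2

theorem D2_mk (F : ι → ℝ → ℝ → ℝ) (hF : ∀ i, ContDiffOn ℝ ∞ (uncurry (F i)) (OBox A B)) (i : ι)
    (z : OBox A B) : (D2 ι A B (mkF F hF)).1 i z = dy (F i) z.1.1 z.1.2 :=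
  dy_congr (isOpen_OBox A B) (fun _ _ h => ext0_congr (F i) h) z.2

variable (A B) in
/-- families which are constant on the box. -/
def cst (c : ι → ℝ) : SFam ι A B := mkF (fun i _ _ => c i) (fun _ => contDiffOn_const)

theorem v_cst (c : ι → ℝ) (i : ι) (z : OBox A B) : (cst A B c).1 i z = c i := rfl

theorem D1_cst (c : ι → ℝ) : D1 ι A B (cst A B c) = 0 := by
  ext i z
  exact (D1_mk _ _ i z).trans (dx_const _ _ _)

theorem D2_cst (c : ι → ℝ) : D2 ι A B (cst A B c) = 0 := by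
  ext i z
  exact (D2_mk _ _ i z).trans (dy_const _ _ _)

theorem ext_fam {f g : SFam ι A B} (h : ∀ i z, f.1 i z = g.1 i z) : f = g := by
  ext i z
  exact h i z

end

section

variable (C1 : ℝ) (k b : ℕ)

noncomputable abbrev RR := SFam (Idx C1 k b) 1 (1 / 60)

noncomputable def eX : RR C1 k b := mkF (fun i => i.X) (fun i => i.X_smooth)
noncomputable def eV : RR C1 k b := mkF (fun i => i.V) (fun i => i.V_smooth)
noncomputable def eG : RR C1 k b := mkF (fun i => i.G) (fun i => i.G_smooth)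
noncomputable def eH : RR C1 k b := mkF (fun i => i.H) (fun i => i.H_smooth)
noncomputable def eK : RR C1 k b := mkF (fun i => i.K) (fun i => i.K_smooth)
noncomputable def eP : RR C1 k b := mkF (fun i => i.P) (fun i => i.P_smooth)
noncomputable def eBi : RR C1 k b := mkF (fun i => i.Bi) (fun i => i.Bi_smooth)

/-- generators of the ring of structure functions. -/
def gens : Set (RR C1 k b) :=
  {f | ∃ c : Idx C1 k b → ℝ, (∃ M : ℝ, ∀ i, |c i| ≤ M) ∧ f = cst 1 (1 / 60) c} ∪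
    {eP C1 k b, eX C1 k b, eV C1 k b, eBi C1 k b}

/-- the ring of structure functions. -/
noncomputable def ZZ : Subring (RR C1 k b) := Subring.closure (gens C1 k b)

variable {C1 k b}

theorem cst_mem {c : Idx C1 k b → ℝ} {M : ℝ} (h : ∀ i, |c i| ≤ M) :
    cst 1 (1 / 60) c ∈ ZZ C1 k b := Subring.subset_closure (Or.inl ⟨c, ⟨M, h⟩, rfl⟩)

theorem P_mem : eP C1 k b ∈ ZZ C1 k b := Subring.subset_closure (Or.inr (by simp))
theorem X_mem : eX C1 k b ∈ ZZ C1 k b := Subring.subset_closure (Or.inr (by simp))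
theorem V_mem : eV C1 k b ∈ ZZ C1 k b := Subring.subset_closure (Or.inr (by simp))
theorem Bi_mem : eBi C1 k b ∈ ZZ C1 k b := Subring.subset_closure (Or.inr (by simp))

theorem sq_mem {f : RR C1 k b} (h : f ∈ ZZ C1 k b) : f ^ 2 ∈ ZZ C1 k b := Subring.pow_mem _ h 2

/-! constants -/

noncomputable def k1 : RR C1 k b := cst 1 (1 / 60) (fun i => i.r ^ 4 * i.s ^ 2)
noncomputable def k2 : RR C1 k b := cst 1 (1 / 60) (fun i => i.r ^ 2 * i.s ^ 2 / 2)
noncomputable def k3 : RR C1 k b := cst 1 (1 / 60) (fun i => i.mu)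
noncomputable def k4 : RR C1 k b := cst 1 (1 / 60) (fun i => i.r ^ 2)
noncomputable def k5 : RR C1 k b := cst 1 (1 / 60) (fun i => i.r ^ 2 * i.s)
noncomputable def k6 : RR C1 k b := cst 1 (1 / 60) (fun i => 2 * i.r ^ 2 * i.A3)
noncomputable def k7 : RR C1 k b := cst 1 (1 / 60) (fun i => i.s)
noncomputable def k8 : RR C1 k b := cst 1 (1 / 60) (fun i => i.A3)
noncomputable def k9 : RR C1 k b := cst 1 (1 / 60) (fun i => i.s * i.A3)
noncomputable def k10 : RR C1 k b := cst 1 (1 / 60) (fun i => i.s ^ 2)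
noncomputable def k11 : RR C1 k b := cst 1 (1 / 60) (fun i => i.r ^ 2 * i.s ^ 2 * i.s)
noncomputable def k12 : RR C1 k b := cst 1 (1 / 60) (fun i => i.r ^ 2 * i.s ^ 2 * i.A3)

theorem pw {x : ℝ} (h0 : 0 < x) (h1 : x ≤ 1) (n : ℕ) : |x ^ n| ≤ 1 := by
  rw [abs_of_pos (pow_pos h0 n)]
  exact pow_le_one₀ h0.le h1

theorem mb {x y a b : ℝ} (hx : |x| ≤ a) (hy : |y| ≤ b) : |x * y| ≤ a * b := by
  rw [abs_mul]
  exact mul_le_mul hx hy (abs_nonneg _) ((abs_nonneg _).trans hx)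

theorem r_le_one (i : Idx C1 k b) : i.r ≤ 1 := by linarith [i.hr1]
theorem s_le_one (i : Idx C1 k b) : i.s ≤ 1 := by linarith [i.s_le]
theorem rp (i : Idx C1 k b) (n : ℕ) : |i.r ^ n| ≤ 1 := pw i.hr (r_le_one i) n
theorem sp (i : Idx C1 k b) (n : ℕ) : |i.s ^ n| ≤ 1 := pw i.s_pos (s_le_one i) n
theorem s1 (i : Idx C1 k b) : |i.s| ≤ 1 := by simpa using sp i 1
theorem two1 : |(2 : ℝ)| ≤ 2 := by simp
theorem half1 : |(2 : ℝ)⁻¹| ≤ 1 := by rw [abs_of_pos] <;> norm_num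

theorem k1_mem : k1 ∈ ZZ C1 k b := cst_mem (fun i => mb (rp i 4) (sp i 2))
theorem k2_mem : k2 ∈ ZZ C1 k b :=
  cst_mem (fun i => by rw [div_eq_mul_inv]; exact mb (mb (rp i 2) (sp i 2)) half1)
theorem k3_mem : k3 ∈ ZZ C1 k b := by
  apply cst_mem (M := C1)
  intro i
  have h1 : 0 < i.mu := lt_of_lt_of_le (by have := i.hC; positivity) i.hmu1
  rw [abs_of_pos h1]
  exact i.hmu2
theorem k4_mem : k4 ∈ ZZ C1 k b := cst_mem (fun i => rp i 2)
theorem k5_mem : k5 ∈ ZZ C1 k b := cst_mem (fun i => mb (rp i 2) (s1 i))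
theorem k6_mem : k6 ∈ ZZ C1 k b := cst_mem (fun i => mb (mb two1 (rp i 2)) i.A3_bound)
theorem k7_mem : k7 ∈ ZZ C1 k b := cst_mem (fun i => s1 i)
theorem k8_mem : k8 ∈ ZZ C1 k b := cst_mem (fun i => i.A3_bound)
theorem k9_mem : k9 ∈ ZZ C1 k b := cst_mem (fun i => mb (s1 i) i.A3_bound)
theorem k10_mem : k10 ∈ ZZ C1 k b := cst_mem (fun i => sp i 2)
theorem k11_mem : k11 ∈ ZZ C1 k b := cst_mem (fun i => mb (mb (rp i 2) (sp i 2)) (s1 i))
theorem k12_mem : k12 ∈ ZZ C1 k b := cst_mem (fun i => mb (mb (rp i 2) (sp i 2)) i.A3_bound)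

variable (C1 k b) in
/-- coefficient of `G`. -/
noncomputable def ea : RR C1 k b :=
  k1 * eX C1 k b ^ 2 * eV C1 k b ^ 2 * eBi C1 k b ^ 2
    + (1 - k2 * eX C1 k b ^ 2) * (k3 - k4 * eP C1 k b ^ 2) - k4 * eV C1 k b ^ 2 * eBi C1 k b

variable (C1 k b) in
/-- coefficient of `2 H`. -/
noncomputable def eb : RR C1 k b := k5 * eX C1 k b * eV C1 k b * eBi C1 k b

variable (C1 k b) in
/-- constant term. -/
noncomputable def ef : RR C1 k b :=
  k6 * eX C1 k b * eV C1 k b * eBi C1 k b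
    + k4 * (1 - k2 * eX C1 k b ^ 2) * eP C1 k b * eX C1 k b

theorem ea_mem : ea C1 k b ∈ ZZ C1 k b := by
  unfold ea
  apply Subring.sub_mem
  · apply Subring.add_mem
    · exact Subring.mul_mem _ (Subring.mul_mem _ (Subring.mul_mem _ k1_mem (sq_mem X_mem))
        (sq_mem V_mem)) (sq_mem Bi_mem)
    · exact Subring.mul_mem _ (Subring.sub_mem _ (Subring.one_mem _)
        (Subring.mul_mem _ k2_mem (sq_mem X_mem)))
        (Subring.sub_mem _ k3_mem (Subring.mul_mem _ k4_mem (sq_mem P_mem)))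
  · exact Subring.mul_mem _ (Subring.mul_mem _ k4_mem (sq_mem V_mem)) Bi_mem

theorem eb_mem : eb C1 k b ∈ ZZ C1 k b :=
  Subring.mul_mem _ (Subring.mul_mem _ (Subring.mul_mem _ k5_mem X_mem) V_mem) Bi_mem

theorem ef_mem : ef C1 k b ∈ ZZ C1 k b := by
  unfold ef
  apply Subring.add_mem
  · exact Subring.mul_mem _ (Subring.mul_mem _ (Subring.mul_mem _ k6_mem X_mem) V_mem) Bi_mem
  · exact Subring.mul_mem _ (Subring.mul_mem _ (Subring.mul_mem _ k4_mem
      (Subring.sub_mem _ (Subring.one_mem _)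
        (Subring.mul_mem _ k2_mem (sq_mem X_mem)))) P_mem) X_mem

theorem ea_val (i : Idx C1 k b) (z : OBox 1 (1 / 60)) : (ea C1 k b).1 i z
    = ca i.r i.s i.mu (i.P z.1.1 z.1.2) (i.X z.1.1 z.1.2) (i.V z.1.1 z.1.2)
      (i.Bi z.1.1 z.1.2) := by
  unfold ea
  rw [v_sub, v_add, v_mul, v_mul, v_mul, v_mul, v_sub, v_mul, v_sub, v_mul, v_mul, v_mul,
    v_sq, v_sq, v_sq, v_sq, v_one]
  rfl

theorem eb_val (i : Idx C1 k b) (z : OBox 1 (1 / 60)) : (eb C1 k b).1 i z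
    = i.r ^ 2 * i.s * i.X z.1.1 z.1.2 * i.V z.1.1 z.1.2 * i.Bi z.1.1 z.1.2 := rfl

theorem ef_val (i : Idx C1 k b) (z : OBox 1 (1 / 60)) : (ef C1 k b).1 i z
    = 2 * i.r ^ 2 * i.A3 * i.X z.1.1 z.1.2 * i.V z.1.1 z.1.2 * i.Bi z.1.1 z.1.2
      + i.r ^ 2 * i.BB z.1.1 z.1.2 * i.P z.1.1 z.1.2 * i.X z.1.1 z.1.2 := by
  unfold ef
  rw [v_add, v_mul, v_mul, v_mul, v_mul, v_mul, v_mul, v_sub, v_mul, v_sq, v_one]
  rfl

theorem K_rel : eK C1 k b = -(ea C1 k b * eG C1 k b + 2 * eb C1 k b * eH C1 k b + ef C1 k b) := by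
  apply ext_fam
  intro i z
  rw [v_neg, v_add, v_add, v_mul, v_mul, v_mul, v_two, ea_val, eb_val, ef_val]
  exact i.K_eq z.2

theorem D1P : D1 (Idx C1 k b) 1 (1 / 60) (eP C1 k b) = k7 := by
  apply ext_fam
  intro i z
  exact (D1_mk _ _ i z).trans i.dx_P

theorem D2P : D2 (Idx C1 k b) 1 (1 / 60) (eP C1 k b) = 0 := by
  apply ext_fam
  intro i z
  exact (D2_mk _ _ i z).trans i.dy_P

theorem D1X : D1 (Idx C1 k b) 1 (1 / 60) (eX C1 k b) = k7 * eG C1 k b := by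
  apply ext_fam
  intro i z
  exact (D1_mk _ _ i z).trans (i.dx_X z.2)

theorem D2X : D2 (Idx C1 k b) 1 (1 / 60) (eX C1 k b) = k8 + k7 * eH C1 k b := by
  apply ext_fam
  intro i z
  exact (D2_mk _ _ i z).trans (i.dy_X z.2)

theorem D1V : D1 (Idx C1 k b) 1 (1 / 60) (eV C1 k b) = k7 * (k8 + k7 * eH C1 k b) := by
  apply ext_fam
  intro i z
  exact (D1_mk _ _ i z).trans (i.dx_V z.2)

theorem D2V : D2 (Idx C1 k b) 1 (1 / 60) (eV C1 k b) = k10 * eK C1 k b := by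
  apply ext_fam
  intro i z
  exact (D2_mk _ _ i z).trans (i.dy_V z.2)

theorem D1Bi : D1 (Idx C1 k b) 1 (1 / 60) (eBi C1 k b)
    = k2 * 2 * eBi C1 k b ^ 2 * eX C1 k b * (k7 * eG C1 k b) := by
  apply ext_fam
  intro i z
  refine (D1_mk _ _ i z).trans ((i.dx_Bi z.2).trans ?_)
  rw [v_mul, v_mul, v_mul, v_mul, v_mul, v_sq, v_two]
  change _ = i.r ^ 2 * i.s ^ 2 / 2 * 2 * i.Bi z.1.1 z.1.2 ^ 2 * i.X z.1.1 z.1.2
    * (i.s * i.G z.1.1 z.1.2)
  ring

theorem D2Bi : D2 (Idx C1 k b) 1 (1 / 60) (eBi C1 k b)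
    = k2 * 2 * eBi C1 k b ^ 2 * eX C1 k b * (k8 + k7 * eH C1 k b) := by
  apply ext_fam
  intro i z
  refine (D2_mk _ _ i z).trans ((i.dy_Bi z.2).trans ?_)
  rw [v_mul, v_mul, v_mul, v_mul, v_add, v_mul, v_sq, v_two]
  change _ = i.r ^ 2 * i.s ^ 2 / 2 * 2 * i.Bi z.1.1 z.1.2 ^ 2 * i.X z.1.1 z.1.2
    * (i.A3 + i.s * i.H z.1.1 z.1.2)
  ring

theorem two_mem : (2 : RR C1 k b) ∈ ZZ C1 k b := by
  exact_mod_cast natCast_mem (ZZ C1 k b) 2

/-- the relations. -/
theorem rel : Rel (D1 (Idx C1 k b) 1 (1 / 60)) (D2 (Idx C1 k b) 1 (1 / 60)) (ZZ C1 k b)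
    (eG C1 k b) (eH C1 k b) (eK C1 k b) (ea C1 k b) (eb C1 k b) (ef C1 k b) where
  comm := D_comm
  hZ1 := by
    apply affine_closure
    rintro x (⟨c, -, rfl⟩ | hx)
    · rw [D1_cst]
      exact Aff.of_mem _ _ (Subring.zero_mem _)
    · simp only [mem_insert_iff, mem_singleton_iff] at hx
      rcases hx with rfl | rfl | rfl | rfl
      · rw [D1P]
        exact Aff.of_mem _ _ k7_mem
      · rw [D1X]
        exact ⟨k7, k7_mem, 0, Subring.zero_mem _, 0, Subring.zero_mem _, by ring⟩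
      · rw [D1V]
        exact ⟨0, Subring.zero_mem _, k7 * k7, Subring.mul_mem _ k7_mem k7_mem, k7 * k8,
          Subring.mul_mem _ k7_mem k8_mem, by ring⟩
      · rw [D1Bi]
        have h : k2 * 2 * eBi C1 k b ^ 2 * eX C1 k b ∈ ZZ C1 k b :=
          Subring.mul_mem _ (Subring.mul_mem _ (Subring.mul_mem _ k2_mem two_mem)
            (sq_mem Bi_mem)) X_mem
        exact ⟨k2 * 2 * eBi C1 k b ^ 2 * eX C1 k b * k7, Subring.mul_mem _ h k7_mem, 0,
          Subring.zero_mem _, 0, Subring.zero_mem _, by ring⟩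
  hZ2 := by
    apply affine_closure
    rintro x (⟨c, -, rfl⟩ | hx)
    · rw [D2_cst]
      exact Aff.of_mem _ _ (Subring.zero_mem _)
    · simp only [mem_insert_iff, mem_singleton_iff] at hx
      rcases hx with rfl | rfl | rfl | rfl
      · rw [D2P]
        exact Aff.of_mem _ _ (Subring.zero_mem _)
      · rw [D2X]
        exact ⟨0, Subring.zero_mem _, k7, k7_mem, k8, k8_mem, by ring⟩
      · rw [D2V, K_rel]
        refine ⟨-(k10 * ea C1 k b), Subring.neg_mem _ (Subring.mul_mem _ k10_mem ea_mem),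
          -(k10 * (2 * eb C1 k b)), Subring.neg_mem _ (Subring.mul_mem _ k10_mem
            (Subring.mul_mem _ two_mem eb_mem)), -(k10 * ef C1 k b),
          Subring.neg_mem _ (Subring.mul_mem _ k10_mem ef_mem), by ring⟩
      · rw [D2Bi]
        have h : k2 * 2 * eBi C1 k b ^ 2 * eX C1 k b ∈ ZZ C1 k b :=
          Subring.mul_mem _ (Subring.mul_mem _ (Subring.mul_mem _ k2_mem two_mem)
            (sq_mem Bi_mem)) X_mem
        exact ⟨0, Subring.zero_mem _, k2 * 2 * eBi C1 k b ^ 2 * eX C1 k b * k7,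
          Subring.mul_mem _ h k7_mem, k2 * 2 * eBi C1 k b ^ 2 * eX C1 k b * k8,
          Subring.mul_mem _ h k8_mem, by ring⟩
  hGH := by
    apply ext_fam
    intro i z
    exact (D2_mk _ _ i z).trans ((i.dy_G z.2).trans ((i.dx_H z.2).symm.trans
      (D1_mk _ _ i z).symm))
  hHK := by
    apply ext_fam
    intro i z
    exact (D2_mk _ _ i z).trans ((i.dy_H z.2).trans ((i.dx_K z.2).symm.trans
      (D1_mk _ _ i z).symm))
  ha := ea_mem
  hb := eb_mem
  hf := ef_mem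
  hK := K_rel

theorem Z_bdd (ρ : ℝ) : ZZ C1 k b ≤ bddR (Idx C1 k b) 1 (1 / 60) ρ := by
  apply (Subring.closure_le).2
  rintro x (⟨c, ⟨M, hM⟩, rfl⟩ | hx)
  · exact ⟨M, fun i _ _ => hM i⟩
  · simp only [mem_insert_iff, mem_singleton_iff] at hx
    rcases hx with rfl | rfl | rfl | rfl
    · exact ⟨2, fun i z _ => i.P_bound z.2⟩
    · exact ⟨2, fun i z _ => i.X_bound z.2⟩
    · exact ⟨C1, fun i z _ => i.V_bound z.2⟩
    · exact ⟨2, fun i z _ => i.Bi_bound z.2⟩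

/-- all derivatives of `G` are bounded. -/
theorem G_bdd (hC1 : 1 ≤ C1) (m : ℕ) : ∀ ρ : ℝ, 0 < ρ → ρ < 1 →
    (⇑(D1 (Idx C1 k b) 1 (1 / 60)))^[m] (eG C1 k b) ∈ bddR (Idx C1 k b) 1 (1 / 60) ρ := by
  refine all_bounded (by norm_num) (by norm_num) rel (lam := 1 / (8 * C1)) (by positivity) ?_
    (fun ρ _ _ => Z_bdd ρ) ?_ ?_ ?_ ?_ m
  · intro i z
    rw [ea_val, eb_val]
    exact i.ell z.2
  · exact fun ρ _ _ => ⟨2, fun i z _ => i.G_bound z.2⟩
  · exact fun ρ _ _ => ⟨2 * C1, fun i z _ => i.H_bound z.2⟩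
  · refine fun ρ _ _ => ⟨C1, fun i z _ => ?_⟩
    have h1 := D1_mk (fun i : Idx C1 k b => i.G) (fun i => i.G_smooth) i z
    have h2 := i.dxG_bound z.2
    rw [← h1] at h2
    exact h2
  · refine fun ρ _ _ => ⟨C1, fun i z _ => ?_⟩
    have h1 := D1_mk (fun i : Idx C1 k b => i.H) (fun i => i.H_smooth) i z
    have h2 := i.dxH_bound z.2
    rw [← h1] at h2
    exact h2

/-- iterated derivatives on the axis. -/
theorem iter_val (i : Idx C1 k b) (n : ℕ) : ∀ x : ℝ, ∀ hx : (x, (0 : ℝ)) ∈ OBox 1 (1 / 60),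
    ((⇑(D1 (Idx C1 k b) 1 (1 / 60)))^[n] (eG C1 k b)).1 i ⟨(x, 0), hx⟩
      = iteratedDeriv n (fun t => i.G t 0) x := by
  induction n with
  | zero => intro x hx; rw [iteratedDeriv_zero]; rfl
  | succ n ih =>
    intro x hx
    rw [← iter_succ, iteratedDeriv_succ]
    change deriv (fun t => ext0 (((⇑(D1 (Idx C1 k b) 1 (1 / 60)))^[n] (eG C1 k b)).1 i) t 0) x = _
    apply Filter.EventuallyEq.deriv_eq
    filter_upwards [eventually_dx (isOpen_OBox 1 (1 / 60)) hx] with t ht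
    rw [ext0_of_mem _ ht]
    exact ih t ht

theorem iter_scale (φ : ℝ → ℝ) (p s : ℝ) (n : ℕ) : ∀ x : ℝ,
    iteratedDeriv n (fun t => φ (p + s * t)) x = s ^ n * iteratedDeriv n φ (p + s * x) := by
  induction n with
  | zero => intro x; simp
  | succ n ih =>
    intro x
    rw [iteratedDeriv_succ, iteratedDeriv_succ]
    have e : iteratedDeriv n (fun t => φ (p + s * t))
        = fun x => s ^ n * iteratedDeriv n φ (p + s * x) := funext ih
    rw [e, deriv_const_mul_field]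
    have h1 : deriv (fun x => iteratedDeriv n φ (p + s * x)) x
        = s * deriv (iteratedDeriv n φ) (p + s * x) := by
      have h2 := deriv_comp_mul_left s (fun y => iteratedDeriv n φ (p + y)) x
      simp only [smul_eq_mul] at h2
      rw [h2, deriv_comp_const_add]
    rw [h1, pow_succ]
    ring

end

/-- **Block C.** -/
theorem blockC : BlockC := by
  intro C1 k b n hC1 hk hb
  obtain ⟨C, hC⟩ := G_bdd (k := k) (b := b) hC1 n (1 / 2) (by norm_num) (by norm_num)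
  refine ⟨max C 1, 1 / (100 * C1 ^ 2), le_max_right _ _, by positivity, ?_⟩
  intro r hr hr0 mu u hmu1 hmu2 hu p hp
  have key : ∀ τ : ℝ, τ = 1 ∨ τ = -1 →
      |iteratedDeriv n (fun t => dx (dx u) t (τ * YY)) p| * (r ^ (10 * k)) ^ n ≤ max C 1 := by
    intro τ hτ
    let i : Idx C1 k b :=
      { r := r, mu := mu, u := u, p0 := p, τ := τ, hC := hC1, hk := by omega, hr := hr
        hr0 := by
          have h2 : 0 < C1 ^ 2 := by positivity
          have h3 := mul_lt_mul_of_pos_right hr0 h2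
          have h4 : 1 / (100 * C1 ^ 2) * C1 ^ 2 = 1 / 100 := by
            field_simp
          linarith
        hmu1 := hmu1, hmu2 := hmu2, good := hu, hp0 := hp, hτ := hτ }
    have hz : ((0 : ℝ), (0 : ℝ)) ∈ OBox 1 (1 / 60) := Idx.zero_mem
    have h1 := hC i ⟨(0, 0), hz⟩ (mem_OBox.2 ⟨by simp, by simp⟩)
    rw [iter_val i n 0 hz] at h1
    have h2 : (fun t => i.G t 0) = fun t => (fun t => dx (dx u) t (τ * YY)) (p + i.s * t) := by
      funext t
      change dx (dx u) (p + i.s * t) (τ * (YY + 0)) = dx (dx u) (p + i.s * t) (τ * YY)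
      rw [add_zero]
    rw [h2, iter_scale (fun t => dx (dx u) t (τ * YY)) p i.s n 0, mul_zero, add_zero, abs_mul, abs_of_pos (pow_pos i.s_pos n)] at h1
    have h3 : i.s = r ^ (10 * k) := rfl
    rw [h3, mul_comm] at h1
    exact h1.trans (le_max_left _ _)
  have h1 := key 1 (Or.inl rfl)
  have h2 := key (-1) (Or.inr rfl)
  rw [one_mul] at h1
  rw [neg_one_mul] at h2
  exact ⟨h1, h2⟩

end P229.C

/-- **Block C** (name used by the final assembly). -/
theorem P229.blockC : P229.BlockC := P229.C.blockC
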