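import Vale.Agent.P229.Prof

/-!
# P229 block C: the equation on the plateau of the filter strips
-/

namespace P229.C

open Set Real

/-- coefficient of `G = u_pp` in the plateau equation (`V = u_y`, `Bi = 1 / B`). -/
noncomputable def ca (r s mu p X V Bi : ℝ) : ℝ :=
  r ^ 4 * s ^ 2 * X ^ 2 * V ^ 2 * Bi ^ 2 + (1 - r ^ 2 * s ^ 2 / 2 * X ^ 2) * (mu - r ^ 2 * p ^ 2)
    - r ^ 2 * V ^ 2 * Bi

theorem plateau_b0 {P : Par} {y : ℝ} (h1 : 61 / 30 < |y|) (h2 : |y| < 62 / 30) (x : ℝ) :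
    b0 P x y = -(P.eps * x ^ 2 / 2) ∧ b0x P x y = -(P.eps * x) ∧ b0xx P x y = -P.eps ∧
      b0y P x y = 0 := by
  have hk : kk y = 0 := kk_eq_zero (by linarith)
  have hk' : deriv kk y = 0 := deriv_kk_eq_zero (by linarith)
  have hc : chi y = 1 := chi_eq_one h1.le h2.le
  have hc' : deriv chi y = 0 := deriv_chi_plateau h1 h2
  refine ⟨?_, ?_, ?_, ?_⟩
  · unfold b0; rw [hk, hc]; ring
  · unfold b0x; rw [hk, hc]; ring
  · unfold b0xx; rw [hk, hc]; ring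
  · unfold b0y; rw [hk', hc']; ring

theorem plateau_bb {P : Par} (hr : 0 < P.r) (hlam : P.lam ≤ 1) {y : ℝ} (h1 : 61 / 30 < |y|)
    (x : ℝ) : bb P x y = 0 ∧ bbx P x y = 0 ∧ bbxx P x y = 0 ∧ bby P x y = 0 := by
  have hl : 0 < P.lam := by unfold Par.lam; positivity
  have hy : 1 ≤ |y / P.lam| := by
    rw [abs_div, abs_of_pos hl, le_div_iff₀ hl]
    linarith
  have hk : kk (y / P.lam) = 0 := kk_eq_zero hy
  have hk' : deriv kk (y / P.lam) = 0 := deriv_kk_eq_zero hy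
  refine ⟨?_, ?_, ?_, ?_⟩
  · unfold bb; rw [hk]; ring
  · unfold bbx; rw [hk]; ring
  · unfold bbxx; rw [hk]; ring
  · unfold bby; rw [hk']; ring

/-- The equation for `u` where `chi = 1`, `kk = 0` and the bump vanishes; `s = r ^ (10 * k)`.
Hint: `hu.pde` at `(p, y)`; there `chi y = 1`, `deriv chi y = 0` (chi is constant near `y`),
`kk y = 0`, `deriv kk y = 0`, and `bb = bbx = bbxx = bby = 0` because `|y / lam| > 1`. -/
theorem pde_plateau {r mu C1 : ℝ} {k b : ℕ} {u : ℝ → ℝ → ℝ} (hr : 0 < r) (hr1 : r < 1 / 100)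
    (hu : GoodU ⟨r, k, b⟩ mu C1 u) {p y : ℝ} (hp : |p| < 144 / 100) (hy1 : 61 / 30 < |y|)
    (hy2 : |y| < 62 / 30) :
    1 / 2 ≤ 1 - r ^ 2 * (r ^ (10 * k)) ^ 2 / 2 * (dx u p y) ^ 2 ∧
    dy (dy u) p y = -((r ^ (10 * k)) ^ 2 *
      (ca r (r ^ (10 * k)) mu p (dx u p y) (dy u p y)
          (1 - r ^ 2 * (r ^ (10 * k)) ^ 2 / 2 * (dx u p y) ^ 2)⁻¹ * dx (dx u) p y
        + 2 * (r ^ 2 * dx u p y * dy u p y
          * (1 - r ^ 2 * (r ^ (10 * k)) ^ 2 / 2 * (dx u p y) ^ 2)⁻¹) * dy (dx u) p y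
        + r ^ 2 * (1 - r ^ 2 * (r ^ (10 * k)) ^ 2 / 2 * (dx u p y) ^ 2) * p * dx u p y)) := by
  have hs0 : 0 < r ^ (10 * k) := by positivity
  have hs1 : r ^ (10 * k) ≤ 1 := pow_le_one₀ hr.le (by linarith)
  have hX : |dx u p y| ≤ 3 / 2 := by
    have h1 := hu.up p y hp (by linarith)
    have h2 : |dx u p y| ≤ |dx u p y - p| + |p| := by
      have := abs_add_le (dx u p y - p) p
      simpa using this
    linarith
  have hX2 : dx u p y ^ 2 ≤ 9 / 4 := by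
    rw [← sq_abs]
    nlinarith [abs_nonneg (dx u p y)]
  have hrs : r ^ 2 * (r ^ (10 * k)) ^ 2 ≤ 1 / 10 := by
    have h1 : r ^ 2 ≤ 1 / 10 := by nlinarith
    have h2 : (r ^ (10 * k)) ^ 2 ≤ 1 := pow_le_one₀ hs0.le hs1
    calc r ^ 2 * (r ^ (10 * k)) ^ 2 ≤ 1 / 10 * 1 :=
          mul_le_mul h1 h2 (by positivity) (by norm_num)
      _ = 1 / 10 := by norm_num
  have hB : 1 / 2 ≤ 1 - r ^ 2 * (r ^ (10 * k)) ^ 2 / 2 * (dx u p y) ^ 2 := by
    have h3 : 0 ≤ r ^ 2 * (r ^ (10 * k)) ^ 2 := by positivity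
    have h4 : r ^ 2 * (r ^ (10 * k)) ^ 2 * (dx u p y) ^ 2 ≤ 1 / 10 * (9 / 4) :=
      mul_le_mul hrs hX2 (sq_nonneg _) (by norm_num)
    linarith
  refine ⟨hB, ?_⟩
  have hy3 : |y| < 208 / 100 := by linarith
  have hE := hu.pde p y hp hy3
  have hlam : (Par.mk r k b).lam ≤ 1 := by
    change r ^ (10 * k + 2) ≤ 1
    exact pow_le_one₀ hr.le (by linarith)
  obtain ⟨a1, a2, a3, a4⟩ := plateau_b0 (P := ⟨r, k, b⟩) hy1 hy2 (dx u p y)
  obtain ⟨b1, b2, b3, b4⟩ := plateau_bb (P := ⟨r, k, b⟩) hr hlam hy1 (dx u p y)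
  have heps : (Par.mk r k b).eps = (r ^ (10 * k)) ^ 2 := (Par.mk r k b).eps_eq
  unfold EE EEalg at hE
  rw [a1, a2, a3, a4, b1, b2, b3, b4, heps] at hE
  simp only [add_zero] at hE
  generalize r ^ (10 * k) = s at *
  generalize dx u p y = X at *
  generalize dy u p y = V at *
  generalize dx (dx u) p y = G at *
  generalize dy (dx u) p y = H at *
  generalize dy (dy u) p y = K at *
  have hBne : (1 - r ^ 2 * s ^ 2 / 2 * X ^ 2) ≠ 0 := by linarith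
  have e1 : 1 + r ^ 2 * (-(s ^ 2 * X ^ 2 / 2)) = 1 - r ^ 2 * s ^ 2 / 2 * X ^ 2 := by ring
  rw [e1] at hE
  generalize hBB : 1 - r ^ 2 * s ^ 2 / 2 * X ^ 2 = BB at *
  have hinv : ∀ t : ℝ, t / BB = t * BB⁻¹ := fun t => div_eq_mul_inv t BB
  rw [hinv] at hE
  have hBi : BB * BB⁻¹ = 1 := mul_inv_cancel₀ hBne
  unfold ca
  rw [hBB]
  generalize BB⁻¹ = Bi at *
  linear_combination hE + (r ^ 2 * s ^ 2 * V ^ 2 * Bi * G) * hBi

end P229.C
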